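import Vale.Agent.P141.H145.StageG

/-!
# P141, line (A), stack: the stage sum with three families of index types

Hubs `α k`, `β k`, `γ k` with involutions, rectangular matrices `FA : α × β`, `FB : β × γ`,
`FC : γ × α`; `stage3` follows from `stageU` by block padding.
-/

namespace Vale.Agent.P141.H145

open Finset Matrix Vale.Agent.P075 Vale.Agent.P141.PL Vale.Agent.P141.PL.H588
open Vale.Agent.P141.PL.H804 Vale.Agent.P141.H958 Vale.Agent.P141.H609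
open Vale.Agent.P141.H505.Skel (RPg)

noncomputable section

/-! ### isometries -/

section iso

variable {n η : Type*} [Fintype n] [DecidableEq n] [Fintype η] [DecidableEq η]

theorem phi_pad {e : Matrix n η ℝ} (he : eᵀ * e = 1) {X : Matrix η η ℝ} (hX : X.PosSemidef) :
    phi (e * X * eᵀ) = e * phi X * eᵀ := by
  have h1 : (1 + X) * phi X = X := by
    rw [phi, Matrix.mul_sub, Matrix.mul_one, one_add_mul_res hX]
    abel
  have h2 : (1 + e * X * eᵀ) * (1 - e * phi X * eᵀ) = 1 := by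
    have h3 : e * X * eᵀ * (e * phi X * eᵀ) = e * (X * phi X) * eᵀ := by
      calc e * X * eᵀ * (e * phi X * eᵀ) = e * X * (eᵀ * e) * phi X * eᵀ := by
            simp only [Matrix.mul_assoc]
        _ = e * (X * phi X) * eᵀ := by
            rw [he, Matrix.mul_one]
            simp only [Matrix.mul_assoc]
    have h4 : X * phi X = X - phi X := by
      rw [Matrix.add_mul, Matrix.one_mul] at h1
      exact eq_sub_of_add_eq' h1
    rw [Matrix.add_mul, Matrix.one_mul, Matrix.mul_sub, Matrix.mul_one, h3, h4, Matrix.mul_sub,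
      Matrix.sub_mul]
    abel
  have h5 : (1 + e * X * eᵀ)⁻¹ = 1 - e * phi X * eᵀ := Matrix.inv_eq_right_inv h2
  rw [phi, res, h5]
  abel

theorem one_sub_proj_psd {e : Matrix n η ℝ} (he : eᵀ * e = 1) : (1 - e * eᵀ).PosSemidef := by
  have h : 1 - e * eᵀ = (1 - e * eᵀ)ᵀ * (1 - e * eᵀ) := by
    have h1 : e * eᵀ * (e * eᵀ) = e * eᵀ := by
      calc e * eᵀ * (e * eᵀ) = e * (eᵀ * e) * eᵀ := by simp only [Matrix.mul_assoc]
        _ = e * eᵀ := by rw [he, Matrix.mul_one]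
    rw [transpose_sub, transpose_one, transpose_mul, transpose_transpose, Matrix.sub_mul,
      Matrix.one_mul, Matrix.mul_sub, Matrix.mul_one, h1]
    abel
  rw [h]
  exact psd_transpose_mul _

theorem cap_pad {e : Matrix n η ℝ} (he : eᵀ * e = 1) {X : Matrix η η ℝ}
    (hX : (1 - X).PosSemidef) : (1 - e * X * eᵀ).PosSemidef := by
  have h : 1 - e * X * eᵀ = (1 - e * eᵀ) + e * (1 - X) * eᵀ := by
    rw [Matrix.mul_sub, Matrix.sub_mul, Matrix.mul_one]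
    abel
  rw [h]
  exact (one_sub_proj_psd he).add (psd_conj hX e)

end iso

/-! ### padding -/

section pad

variable {n η μ ν : Type*} [Fintype n] [DecidableEq n] [Fintype η] [DecidableEq η]
  [Fintype μ] [DecidableEq μ] [Fintype ν] [DecidableEq ν]

theorem gramC_pad {e : Matrix n η ℝ} {f : Matrix n μ ℝ} (hf : fᵀ * f = 1) (w : ℝ)
    (F : Matrix μ η ℝ) : gramC w (f * F * eᵀ) = e * (w • (Fᵀ * F)) * eᵀ := by
  unfold gramC
  rw [transpose_mul, transpose_mul, transpose_transpose, Matrix.mul_smul, Matrix.smul_mul]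
  congr 1
  calc e * (Fᵀ * fᵀ) * (f * F * eᵀ) = e * (Fᵀ * (fᵀ * f) * F) * eᵀ := by
        simp only [Matrix.mul_assoc]
    _ = e * (Fᵀ * F) * eᵀ := by rw [hf, Matrix.mul_one]

theorem gramR_pad {e : Matrix n η ℝ} {f : Matrix n μ ℝ} (hf : fᵀ * f = 1) (w : ℝ)
    (F : Matrix η μ ℝ) : gramR w (e * F * fᵀ) = e * (w • (F * Fᵀ)) * eᵀ := by
  unfold gramR
  rw [transpose_mul, transpose_mul, transpose_transpose, Matrix.mul_smul, Matrix.smul_mul]
  congr 1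
  calc e * F * fᵀ * (f * (Fᵀ * eᵀ)) = e * (F * (fᵀ * f) * Fᵀ) * eᵀ := by
        simp only [Matrix.mul_assoc]
    _ = e * (F * Fᵀ) * eᵀ := by rw [hf, Matrix.mul_one]

theorem smul_tmul_psd {w : ℝ} (hw : 0 ≤ w) (F : Matrix μ η ℝ) : (w • (Fᵀ * F)).PosSemidef :=
  (psd_transpose_mul F).smul hw

theorem smul_mult_psd {w : ℝ} (hw : 0 ≤ w) (F : Matrix η μ ℝ) : (w • (F * Fᵀ)).PosSemidef := by
  have h := (psd_transpose_mul Fᵀ).smul hw
  rwa [transpose_transpose] at h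

/-- the pair at the hub `η` -/
theorem M2_pad {e : Matrix n η ℝ} {f : Matrix n μ ℝ} {g : Matrix n ν ℝ} (he : eᵀ * e = 1)
    (hf : fᵀ * f = 1) (hg : gᵀ * g = 1) {r : Matrix n n ℝ} {h : Matrix η η ℝ}
    (hre : eᵀ * r * e = h) {w w' : ℝ} (hw : 0 ≤ w) (hw' : 0 ≤ w') (F : Matrix μ η ℝ)
    (H : Matrix η ν ℝ) :
    M2 r w w' (f * F * eᵀ) (e * H * gᵀ) =
      (phi (w • (Fᵀ * F)) * (h * phi (w' • (H * Hᵀ)) * h)).trace := by
  unfold M2
  rw [gramC_pad hf, gramR_pad hg, phi_pad he (smul_tmul_psd hw F), phi_pad he (smul_mult_psd hw' H)]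
  set P := phi (w • (Fᵀ * F))
  set Q := phi (w' • (H * Hᵀ))
  have e1 : e * P * eᵀ * (r * (e * Q * eᵀ) * r) = e * (P * ((eᵀ * r * e) * Q * (eᵀ * r))) := by
    simp only [Matrix.mul_assoc]
  rw [e1, trace_mul_comm, hre]
  have e2 : P * (h * Q * (eᵀ * r)) * e = P * (h * Q * (eᵀ * r * e)) := by
    simp only [Matrix.mul_assoc]
  rw [e2, hre]

end pad

/-! ### the block space -/

section blk

variable (α β γ : Type*) [Fintype α] [DecidableEq α] [Fintype β] [DecidableEq β] [Fintype γ]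
  [DecidableEq γ]

/-- the three isometries -/
def ea : Matrix (α ⊕ (β ⊕ γ)) α ℝ := fromRows 1 0
def eb : Matrix (α ⊕ (β ⊕ γ)) β ℝ := fromRows 0 (fromRows 1 0)
def ec : Matrix (α ⊕ (β ⊕ γ)) γ ℝ := fromRows 0 (fromRows 0 1)

theorem ea_ea : (ea α β γ)ᵀ * ea α β γ = 1 := by
  unfold ea
  rw [transpose_fromRows, fromCols_mul_fromRows]
  simp

theorem eb_eb : (eb α β γ)ᵀ * eb α β γ = 1 := by
  unfold eb
  rw [transpose_fromRows, fromCols_mul_fromRows, transpose_fromRows, fromCols_mul_fromRows]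
  simp

theorem ec_ec : (ec α β γ)ᵀ * ec α β γ = 1 := by
  unfold ec
  rw [transpose_fromRows, fromCols_mul_fromRows, transpose_fromRows, fromCols_mul_fromRows]
  simp

theorem ea_eb : (ea α β γ)ᵀ * eb α β γ = 0 := by
  unfold ea eb
  rw [transpose_fromRows, fromCols_mul_fromRows]
  simp

theorem ea_ec : (ea α β γ)ᵀ * ec α β γ = 0 := by
  unfold ea ec
  rw [transpose_fromRows, fromCols_mul_fromRows]
  simp

theorem eb_ec : (eb α β γ)ᵀ * ec α β γ = 0 := by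
  unfold eb ec
  rw [transpose_fromRows, fromCols_mul_fromRows, transpose_fromRows, fromCols_mul_fromRows]
  simp

theorem eb_ea : (eb α β γ)ᵀ * ea α β γ = 0 := by
  have h := congrArg transpose (ea_eb α β γ)
  rwa [transpose_mul, transpose_transpose, transpose_zero] at h

theorem ec_ea : (ec α β γ)ᵀ * ea α β γ = 0 := by
  have h := congrArg transpose (ea_ec α β γ)
  rwa [transpose_mul, transpose_transpose, transpose_zero] at h

theorem ec_eb : (ec α β γ)ᵀ * eb α β γ = 0 := by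
  have h := congrArg transpose (eb_ec α β γ)
  rwa [transpose_mul, transpose_transpose, transpose_zero] at h

theorem e_sum : ea α β γ * (ea α β γ)ᵀ + eb α β γ * (eb α β γ)ᵀ + ec α β γ * (ec α β γ)ᵀ = 1 := by
  unfold ea eb ec
  simp only [transpose_fromRows, transpose_one, transpose_zero, fromRows_mul_fromCols,
    Matrix.mul_one, Matrix.mul_zero, Matrix.zero_mul, Matrix.one_mul]
  ext i j
  rcases i with i | i | i <;> rcases j with j | j | j <;>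
    simp [Matrix.one_apply, fromBlocks, fromRows, fromCols]

variable {α β γ}

/-- the involution of the block space -/
def rb (ha : Matrix α α ℝ) (hb : Matrix β β ℝ) (hc : Matrix γ γ ℝ) :
    Matrix (α ⊕ (β ⊕ γ)) (α ⊕ (β ⊕ γ)) ℝ :=
  ea α β γ * ha * (ea α β γ)ᵀ + eb α β γ * hb * (eb α β γ)ᵀ + ec α β γ * hc * (ec α β γ)ᵀ

variable {ha : Matrix α α ℝ} {hb : Matrix β β ℝ} {hc : Matrix γ γ ℝ}

theorem rb_ea : rb ha hb hc * ea α β γ = ea α β γ * ha := by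
  unfold rb
  rw [Matrix.add_mul, Matrix.add_mul, Matrix.mul_assoc _ _ (ea α β γ),
    Matrix.mul_assoc (eb α β γ * hb) _ _, Matrix.mul_assoc (ec α β γ * hc) _ _, ea_ea, eb_ea,
    ec_ea, Matrix.mul_one, Matrix.mul_zero, Matrix.mul_zero, add_zero, add_zero]

theorem rb_eb : rb ha hb hc * eb α β γ = eb α β γ * hb := by
  unfold rb
  rw [Matrix.add_mul, Matrix.add_mul, Matrix.mul_assoc (ea α β γ * ha) _ _,
    Matrix.mul_assoc (eb α β γ * hb) _ _, Matrix.mul_assoc (ec α β γ * hc) _ _, ea_eb, eb_eb,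
    ec_eb, Matrix.mul_one, Matrix.mul_zero, Matrix.mul_zero, zero_add, add_zero]

theorem rb_ec : rb ha hb hc * ec α β γ = ec α β γ * hc := by
  unfold rb
  rw [Matrix.add_mul, Matrix.add_mul, Matrix.mul_assoc (ea α β γ * ha) _ _,
    Matrix.mul_assoc (eb α β γ * hb) _ _, Matrix.mul_assoc (ec α β γ * hc) _ _, ea_ec, eb_ec,
    ec_ec, Matrix.mul_one, Matrix.mul_zero, Matrix.mul_zero, zero_add, zero_add]

theorem rb_symm (h1 : haᵀ = ha) (h2 : hbᵀ = hb) (h3 : hcᵀ = hc) :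
    (rb ha hb hc)ᵀ = rb ha hb hc := by
  unfold rb
  simp only [transpose_add, transpose_mul, transpose_transpose, h1, h2, h3, Matrix.mul_assoc]

theorem rb_sq (h1 : ha * ha = 1) (h2 : hb * hb = 1) (h3 : hc * hc = 1) :
    rb ha hb hc * rb ha hb hc = 1 := by
  have e : rb ha hb hc * rb ha hb hc = rb ha hb hc * (ea α β γ) * ha * (ea α β γ)ᵀ +
      rb ha hb hc * (eb α β γ) * hb * (eb α β γ)ᵀ +
      rb ha hb hc * (ec α β γ) * hc * (ec α β γ)ᵀ := by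
    conv_lhs => rw [show rb ha hb hc * rb ha hb hc = rb ha hb hc *
      (ea α β γ * ha * (ea α β γ)ᵀ + eb α β γ * hb * (eb α β γ)ᵀ + ec α β γ * hc * (ec α β γ)ᵀ)
      from rfl]
    rw [Matrix.mul_add, Matrix.mul_add]
    simp only [Matrix.mul_assoc]
  rw [e, rb_ea, rb_eb, rb_ec, Matrix.mul_assoc (ea α β γ) ha ha, Matrix.mul_assoc (eb α β γ) hb hb,
    Matrix.mul_assoc (ec α β γ) hc hc, h1, h2, h3, Matrix.mul_one, Matrix.mul_one, Matrix.mul_one]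
  exact e_sum α β γ

/-- the form in the block space -/
theorem T3_pad (FA : Matrix α β ℝ) (FB : Matrix β γ ℝ) (FC : Matrix γ α ℝ) :
    T3 (rb ha hb hc) (ea α β γ * FA * (eb α β γ)ᵀ) (eb α β γ * FB * (ec α β γ)ᵀ)
      (ec α β γ * FC * (ea α β γ)ᵀ) = (ha * FA * hb * FB * hc * FC).trace := by
  unfold T3
  have e : rb ha hb hc * (ea α β γ * FA * (eb α β γ)ᵀ) * rb ha hb hc *
      (eb α β γ * FB * (ec α β γ)ᵀ) * rb ha hb hc * (ec α β γ * FC * (ea α β γ)ᵀ) =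
      (rb ha hb hc * ea α β γ) * (FA * ((eb α β γ)ᵀ * (rb ha hb hc * eb α β γ)) * FB *
        ((ec α β γ)ᵀ * (rb ha hb hc * ec α β γ)) * FC * (ea α β γ)ᵀ) := by
    simp only [Matrix.mul_assoc]
  rw [e, rb_ea, rb_eb, rb_ec, ← Matrix.mul_assoc (eb α β γ)ᵀ, ← Matrix.mul_assoc (ec α β γ)ᵀ,
    eb_eb, ec_ec, Matrix.one_mul, Matrix.one_mul]
  rw [show ea α β γ * ha * (FA * hb * FB * hc * FC * (ea α β γ)ᵀ) =
    ea α β γ * (ha * (FA * hb * FB * hc * FC * (ea α β γ)ᵀ)) by rw [Matrix.mul_assoc],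
    trace_mul_comm]
  have e2 : ha * (FA * hb * FB * hc * FC * (ea α β γ)ᵀ) * ea α β γ =
      ha * FA * hb * FB * hc * FC * ((ea α β γ)ᵀ * ea α β γ) := by
    simp only [Matrix.mul_assoc]
  rw [e2, ea_ea, Matrix.mul_one]

end blk

/-! ### the stage sum -/

/-- raw pair sum at the hub `η`, rectangular matrices -/
def RPr {η μ ν : ℕ → Type} [∀ k, Fintype (η k)] [∀ k, DecidableEq (η k)] [∀ k, Fintype (μ k)]
    [∀ k, Fintype (ν k)] (h : ∀ k, Matrix (η k) (η k) ℝ) (N : ℕ) (s : ℕ → Finset Pt) (x y : ℝ)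
    (F : ∀ k, Pt → Matrix (μ k) (η k) ℝ) (H : ∀ k, Pt → Matrix (η k) (ν k) ℝ) : ℝ :=
  ∑ k ∈ Icc 1 N, ∑ m ∈ s k, x ^ 2 * y ^ 2 * (4 ^ k *
    (phi (((x ^ 2)⁻¹ * (4 ^ k)⁻¹) • ((F k m)ᵀ * F k m)) *
      (h k * phi (((y ^ 2)⁻¹ * (4 ^ k)⁻¹) • (H k m * (H k m)ᵀ)) * h k)).trace)

/-- **The stage sum, three hubs.** -/
theorem stage3 {α β γ : ℕ → Type} [∀ k, Fintype (α k)] [∀ k, DecidableEq (α k)]
    [∀ k, Fintype (β k)] [∀ k, DecidableEq (β k)] [∀ k, Fintype (γ k)] [∀ k, DecidableEq (γ k)]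
    {ha : ∀ k, Matrix (α k) (α k) ℝ} {hb : ∀ k, Matrix (β k) (β k) ℝ}
    {hc : ∀ k, Matrix (γ k) (γ k) ℝ} {N : ℕ} {s : ℕ → Finset Pt} {cA cB cC : ℝ}
    {FA : ∀ k, Pt → Matrix (α k) (β k) ℝ} {FB : ∀ k, Pt → Matrix (β k) (γ k) ℝ}
    {FC : ∀ k, Pt → Matrix (γ k) (α k) ℝ}
    (ha1 : ∀ k, (ha k)ᵀ = ha k) (ha2 : ∀ k, ha k * ha k = 1)
    (hb1 : ∀ k, (hb k)ᵀ = hb k) (hb2 : ∀ k, hb k * hb k = 1)
    (hc1 : ∀ k, (hc k)ᵀ = hc k) (hc2 : ∀ k, hc k * hc k = 1)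
    (hA : 0 < cA) (hB : 0 < cB) (hC : 0 < cC)
    (capA : ∀ k ∈ Icc 1 N, ∀ m ∈ s k,
      (1 - ((cA ^ 2)⁻¹ * (4 ^ k)⁻¹) • ((FA k m)ᵀ * FA k m)).PosSemidef)
    (capB : ∀ k ∈ Icc 1 N, ∀ m ∈ s k,
      (1 - ((cB ^ 2)⁻¹ * (4 ^ k)⁻¹) • ((FB k m)ᵀ * FB k m)).PosSemidef)
    (capC : ∀ k ∈ Icc 1 N, ∀ m ∈ s k,
      (1 - ((cC ^ 2)⁻¹ * (4 ^ k)⁻¹) • ((FC k m)ᵀ * FC k m)).PosSemidef)
    {θ τ P₀ PA PB κ' : ℝ} (hθ : 0 < θ) (hτA : cA ≤ τ) (hτB : cB ≤ τ) (hP₀ : 0 ≤ P₀)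
    (hPA : 0 ≤ PA) (hPB : 0 ≤ PB) (hκ' : 0 ≤ κ')
    (hAB : ∀ x, 0 < x → x ≤ τ → RPr hb N s x x FA FB ≤ P₀ * (x ^ 2 * √(τ / x)))
    (hBC : ∀ x, 0 < x → x ≤ τ → RPr hc N s x (θ * x) FB FC ≤ PB * (x ^ 2 * √(τ / x)))
    (hCA : ∀ x, 0 < x → x ≤ τ → RPr ha N s (θ * x) x FC FA ≤ PA * (x ^ 2 * √(τ / x)))
    (hT : ∀ x, θ * τ ≤ x → x ≤ cC →
      √(RPr hc N s cB x FB FC * RPr ha N s x cA FC FA) ≤ κ' * x)
    {L₀ : ℕ} (hL : cC / 2 ^ (L₀ - 1) ≤ θ * τ) :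
    ∑ k ∈ Icc 1 N, ∑ m ∈ s k,
        |(2 ^ k : ℝ)⁻¹ * (ha k * FA k m * hb k * FB k m * hc k * FC k m).trace| ≤
      81 * (√(P₀ * PA) + √(P₀ * PB) + √(PA * PB) / θ) * τ + 6 * κ' * L₀ := by
  set r : ∀ k, Matrix (α k ⊕ (β k ⊕ γ k)) (α k ⊕ (β k ⊕ γ k)) ℝ := fun k =>
    rb (ha k) (hb k) (hc k) with hr
  set GA : ∀ k, Pt → Matrix (α k ⊕ (β k ⊕ γ k)) (α k ⊕ (β k ⊕ γ k)) ℝ := fun k m =>
    ea (α k) (β k) (γ k) * FA k m * (eb (α k) (β k) (γ k))ᵀ with hGA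
  set GB : ∀ k, Pt → Matrix (α k ⊕ (β k ⊕ γ k)) (α k ⊕ (β k ⊕ γ k)) ℝ := fun k m =>
    eb (α k) (β k) (γ k) * FB k m * (ec (α k) (β k) (γ k))ᵀ with hGB
  set GC : ∀ k, Pt → Matrix (α k ⊕ (β k ⊕ γ k)) (α k ⊕ (β k ⊕ γ k)) ℝ := fun k m =>
    ec (α k) (β k) (γ k) * FC k m * (ea (α k) (β k) (γ k))ᵀ with hGC
  have q1 : ∀ k, (eb (α k) (β k) (γ k))ᵀ * r k * eb (α k) (β k) (γ k) = hb k := fun k => by
    rw [Matrix.mul_assoc, hr]
    simp only
    rw [rb_eb, ← Matrix.mul_assoc, eb_eb, Matrix.one_mul]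
  have q2 : ∀ k, (ec (α k) (β k) (γ k))ᵀ * r k * ec (α k) (β k) (γ k) = hc k := fun k => by
    rw [Matrix.mul_assoc, hr]
    simp only
    rw [rb_ec, ← Matrix.mul_assoc, ec_ec, Matrix.one_mul]
  have q3 : ∀ k, (ea (α k) (β k) (γ k))ᵀ * r k * ea (α k) (β k) (γ k) = ha k := fun k => by
    rw [Matrix.mul_assoc, hr]
    simp only
    rw [rb_ea, ← Matrix.mul_assoc, ea_ea, Matrix.one_mul]
  have eAB : ∀ x y : ℝ, RPg r N s x y GA GB = RPr hb N s x y FA FB := fun x y => by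
    unfold H505.Skel.RPg RPr
    refine sum_congr rfl fun k _ => sum_congr rfl fun m _ => ?_
    rw [hGA, hGB]
    simp only
    rw [M2_pad (eb_eb _ _ _) (ea_ea _ _ _) (ec_ec _ _ _) (q1 k) (by positivity) (by positivity)]
  have eBC : ∀ x y : ℝ, RPg r N s x y GB GC = RPr hc N s x y FB FC := fun x y => by
    unfold H505.Skel.RPg RPr
    refine sum_congr rfl fun k _ => sum_congr rfl fun m _ => ?_
    rw [hGB, hGC]
    simp only
    rw [M2_pad (ec_ec _ _ _) (eb_eb _ _ _) (ea_ea _ _ _) (q2 k) (by positivity) (by positivity)]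
  have eCA : ∀ x y : ℝ, RPg r N s x y GC GA = RPr ha N s x y FC FA := fun x y => by
    unfold H505.Skel.RPg RPr
    refine sum_congr rfl fun k _ => sum_congr rfl fun m _ => ?_
    rw [hGC, hGA]
    simp only
    rw [M2_pad (ea_ea _ _ _) (ec_ec _ _ _) (eb_eb _ _ _) (q3 k) (by positivity) (by positivity)]
  have main := stageU (r := r) (FA := GA) (FB := GB) (FC := GC)
    (fun k => rb_symm (ha1 k) (hb1 k) (hc1 k)) (fun k => rb_sq (ha2 k) (hb2 k) (hc2 k)) hA hB hC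
    (fun k hk m hm => by
      rw [hGA]
      simp only
      rw [gramC_pad (ea_ea _ _ _)]
      exact cap_pad (eb_eb _ _ _) (capA k hk m hm))
    (fun k hk m hm => by
      rw [hGB]
      simp only
      rw [gramC_pad (eb_eb _ _ _)]
      exact cap_pad (ec_ec _ _ _) (capB k hk m hm))
    (fun k hk m hm => by
      rw [hGC]
      simp only
      rw [gramC_pad (ec_ec _ _ _)]
      exact cap_pad (ea_ea _ _ _) (capC k hk m hm))
    hθ hτA hτB hP₀ hPA hPB hκ' (fun x h1 h2 => by rw [eAB]; exact hAB x h1 h2)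
    (fun x h1 h2 => by rw [eBC]; exact hBC x h1 h2) (fun x h1 h2 => by rw [eCA]; exact hCA x h1 h2)
    (fun x h1 h2 => by rw [eBC, eCA]; exact hT x h1 h2) hL
  refine le_trans (le_of_eq ?_) main
  unfold UG
  refine sum_congr rfl fun k _ => sum_congr rfl fun m _ => ?_
  congr 2
  exact (T3_pad (FA k m) (FB k m) (FC k m)).symm

end

end Vale.Agent.P141.H145
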