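import Vale.Agent.P141.H145.Stage3

/-!
# P141, line (A): the stage sum, arbitrary node type

`stageU` of `H145.StageG` with nodes in an arbitrary type `P`.
-/

namespace Vale.Agent.P141.H145.P

open Finset Matrix Vale.Agent.P075 Vale.Agent.P141.PL Vale.Agent.P141.PL.H588
open Vale.Agent.P141.PL.H804 Vale.Agent.P141.H958 Vale.Agent.P141.H609

noncomputable section

theorem core2s {P : Type*} {N : ℕ} {s : ℕ → Finset P} (D A B : ℕ → P → ℝ) {w p q : ℝ} (hw : 0 ≤ w)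
    (hP : ∀ k m, 0 ≤ A k m) (hQ : ∀ k m, 0 ≤ B k m)
    (h : ∀ k ∈ Icc 1 N, ∀ m ∈ s k, D k m ^ 2 ≤ 36 * w ^ 2 * (A k m * B k m))
    (hp : ∑ k ∈ Icc 1 N, ∑ m ∈ s k, A k m ≤ p) (hq : ∑ k ∈ Icc 1 N, ∑ m ∈ s k, B k m ≤ q) :
    ∑ k ∈ Icc 1 N, ∑ m ∈ s k, |D k m| ≤ 6 * (w * √(p * q)) := by
  set X : Finset (Σ _ : ℕ, P) := (Icc 1 N).sigma s with hX
  have sig : ∀ M : ℕ → P → ℝ, ∑ k ∈ Icc 1 N, ∑ m ∈ s k, M k m = ∑ i ∈ X, M i.1 i.2 :=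
    fun M => by rw [hX, Finset.sum_sigma]
  rw [sig] at hp hq
  rw [sig fun k m => |D k m|]
  exact core2 X (fun i => D i.1 i.2) (fun i => A i.1 i.2) (fun i => B i.1 i.2) hw
    (fun i _ => hP _ _) (fun i _ => hQ _ _)
    (fun i hi => h i.1 (Finset.mem_sigma.1 (hX ▸ hi)).1 i.2 (Finset.mem_sigma.1 (hX ▸ hi)).2)
    hp hq

theorem diff_le {P : Type*} {N : ℕ} {s : ℕ → Finset P} (t t' D : ℕ → P → ℝ) {w : ℝ}
    (hD : ∀ k m, t k m = t' k m + D k m) (h : ∑ k ∈ Icc 1 N, ∑ m ∈ s k, |D k m| ≤ w) :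
    ∑ k ∈ Icc 1 N, ∑ m ∈ s k, |t k m| ≤ ∑ k ∈ Icc 1 N, ∑ m ∈ s k, |t' k m| + w := by
  refine le_trans ?_ (add_le_add le_rfl h)
  rw [← sum_add_distrib]
  refine sum_le_sum fun k _ => ?_
  rw [← sum_add_distrib]
  refine sum_le_sum fun m _ => ?_
  rw [hD k m]
  exact abs_add_le _ _

/-- raw pair sum -/
def RP {P : Type*} {ι : ℕ → Type} [∀ k, Fintype (ι k)] [∀ k, DecidableEq (ι k)]
    (h : ∀ k, Matrix (ι k) (ι k) ℝ) (N : ℕ) (s : ℕ → Finset P) (x y : ℝ)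
    (F H : ∀ k, P → Matrix (ι k) (ι k) ℝ) : ℝ :=
  ∑ k ∈ Icc 1 N, ∑ m ∈ s k, x ^ 2 * y ^ 2 *
    (4 ^ k * M2 (h k) ((x ^ 2)⁻¹ * (4 ^ k)⁻¹) ((y ^ 2)⁻¹ * (4 ^ k)⁻¹) (F k m) (H k m))

/-- The form with the three indices. -/
def UG {P : Type*} {ι : ℕ → Type} [∀ k, Fintype (ι k)] [∀ k, DecidableEq (ι k)]
    (r : ∀ k, Matrix (ι k) (ι k) ℝ) (N : ℕ) (s : ℕ → Finset P) (cA cB cC : ℝ)
    (FA FB FC : ∀ k, P → Matrix (ι k) (ι k) ℝ) (a b e : ℕ) : ℝ :=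
  ∑ k ∈ Icc 1 N, ∑ m ∈ s k, |(2 ^ k : ℝ)⁻¹ *
    T3 (r k) (rg ((cA ^ 2)⁻¹ * (4 ^ k)⁻¹) (FA k m) a) (rg ((cB ^ 2)⁻¹ * (4 ^ k)⁻¹) (FB k m) b)
      (rg ((cC ^ 2)⁻¹ * (4 ^ k)⁻¹) (FC k m) e)|


section

variable {P : Type*} {ι : ℕ → Type} [∀ k, Fintype (ι k)] [∀ k, DecidableEq (ι k)]
  {r : ∀ k, Matrix (ι k) (ι k) ℝ} {N : ℕ} {s : ℕ → Finset P} {cA cB cC : ℝ}
  {FA FB FC F H : ∀ k, P → Matrix (ι k) (ι k) ℝ}

theorem UG_nonneg (a b e : ℕ) : 0 ≤ UG r N s cA cB cC FA FB FC a b e :=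
  sum_nonneg fun _ _ => sum_nonneg fun _ _ => abs_nonneg _

theorem UG_cyc (a b e : ℕ) :
    UG r N s cA cB cC FA FB FC a b e = UG r N s cB cC cA FB FC FA b e a := by
  unfold UG
  refine sum_congr rfl fun k _ => sum_congr rfl fun m _ => ?_
  rw [T3_cyc]


variable (hr : ∀ k, (r k)ᵀ = r k) (hr2 : ∀ k, r k * r k = 1)

include hr

theorem RP_nonneg {x y : ℝ} : 0 ≤ RP r N s x y F H :=
  sum_nonneg fun k _ => sum_nonneg fun m _ => mul_nonneg (by positivity)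
    (mul_nonneg (by positivity) (M2_nonneg (hr _) (by positivity) (by positivity) _ _))

theorem RP_mono {x x' y y' : ℝ} (hx : 0 < x) (hy : 0 < y) (hxx : x ≤ x') (hyy : y ≤ y') :
    RP r N s x y F H ≤ RP r N s x' y' F H := by
  refine sum_le_sum fun k _ => sum_le_sum fun m _ => ?_
  have hu : (0 : ℝ) ≤ (4 ^ k)⁻¹ := by positivity
  have h1 := satC_mono (F k m) hx hxx hu
  have h2 := satR_mono (H k m) hy hyy hu
  have hx' := hx.trans_le hxx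
  have hy' := hy.trans_le hyy
  set P := phi (gramC ((x ^ 2)⁻¹ * (4 ^ k)⁻¹) (F k m))
  set P' := phi (gramC ((x' ^ 2)⁻¹ * (4 ^ k)⁻¹) (F k m))
  set Q := phi (gramR ((y ^ 2)⁻¹ * (4 ^ k)⁻¹) (H k m)) with hQ
  set Q' := phi (gramR ((y' ^ 2)⁻¹ * (4 ^ k)⁻¹) (H k m)) with hQ'
  have pQ : (y ^ 2 • Q).PosSemidef :=
    (phi_psd (gramR_psd (by positivity) _)).smul (by positivity)
  have pP' : (x' ^ 2 • P').PosSemidef :=
    (phi_psd (gramC_psd (by positivity) _)).smul (by positivity)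
  have i1 : ((x ^ 2 • P) * (r k * (y ^ 2 • Q) * r k)).trace ≤
      ((x' ^ 2 • P') * (r k * (y ^ 2 • Q) * r k)).trace :=
    trace_mul_le_left (psd_conj_symm pQ (hr k)) h1
  have i2 : ((x' ^ 2 • P') * (r k * (y ^ 2 • Q) * r k)).trace ≤
      ((x' ^ 2 • P') * (r k * (y' ^ 2 • Q') * r k)).trace := by
    refine trace_mul_le_right pP' ?_
    have := psd_conj_symm h2 (hr k)
    rwa [Matrix.mul_sub, Matrix.sub_mul] at this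
  have i3 := i1.trans i2
  have e : ∀ (p q : ℝ) (X Y : Matrix (ι k) (ι k) ℝ),
      ((p • X) * (r k * (q • Y) * r k)).trace = p * q * (X * (r k * Y * r k)).trace := by
    intro p q X Y
    simp only [Matrix.mul_smul, Matrix.smul_mul, trace_smul, smul_eq_mul]
    ring
  rw [e, e] at i3
  have i4 := mul_le_mul_of_nonneg_left i3 (by positivity : (0 : ℝ) ≤ 4 ^ k)
  rw [M2, M2]
  linarith


include hr2

/-- **A-step**: centre the first function, two raw pair sums. -/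
theorem UG_A (hA : 0 < cA) (hB : 0 < cB) (hC : 0 < cC)
    (capA : ∀ k ∈ Icc 1 N, ∀ m ∈ s k, (1 - gramC ((cA ^ 2)⁻¹ * (4 ^ k)⁻¹) (FA k m)).PosSemidef)
    (capB : ∀ k ∈ Icc 1 N, ∀ m ∈ s k, (1 - gramC ((cB ^ 2)⁻¹ * (4 ^ k)⁻¹) (FB k m)).PosSemidef)
    (capC : ∀ k ∈ Icc 1 N, ∀ m ∈ s k, (1 - gramC ((cC ^ 2)⁻¹ * (4 ^ k)⁻¹) (FC k m)).PosSemidef)
    (a b e : ℕ) {x y : ℝ}
    (hx : RP r N s (cC / 2 ^ (e - 1)) (cA / 2 ^ (a - 1)) FC FA ≤ x)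
    (hy : RP r N s (cA / 2 ^ (a - 1)) (cB / 2 ^ (b - 1)) FA FB ≤ y) :
    UG r N s cA cB cC FA FB FC a b e ≤ UG r N s cA cB cC FA FB FC (a + 1) b e +
      6 * ((cA / 2 ^ (a - 1))⁻¹ * √(x * y)) := by
  have h₀ : 0 < (cA ^ 2)⁻¹ := by positivity
  have h₁ : 0 < (cB ^ 2)⁻¹ := by positivity
  have h₂ : 0 < (cC ^ 2)⁻¹ := by positivity
  have a0 := lv_pos hA a
  have a1 := lv_pos hB b
  have a2 := lv_pos hC e
  have hk4 : ∀ k : ℕ, (0 : ℝ) < (4 ^ k)⁻¹ := fun k => by positivity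
  set xA := cA / 2 ^ (a - 1) with hxA
  set xB := cB / 2 ^ (b - 1) with hxB
  set xC := cC / 2 ^ (e - 1) with hxC
  have pA : 0 < xA := by positivity
  have pB : 0 < xB := by positivity
  have pC : 0 < xC := by positivity
  have vA : lv cA a = (xA ^ 2)⁻¹ := lv_inv hA a
  have vB : lv cB b = (xB ^ 2)⁻¹ := lv_inv hB b
  have vC : lv cC e = (xC ^ 2)⁻¹ := lv_inv hC e
  unfold UG
  refine diff_le _ _ (fun k m => (2 ^ k : ℝ)⁻¹ *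
    T3 (r k) (pc ((cA ^ 2)⁻¹ * (4 ^ k)⁻¹) (FA k m) a) (rg ((cB ^ 2)⁻¹ * (4 ^ k)⁻¹) (FB k m) b)
      (rg ((cC ^ 2)⁻¹ * (4 ^ k)⁻¹) (FC k m) e)) (fun k m => ?_) ?_
  · rw [pc_eq, T3_sub_left]
    ring
  · refine (core2s _ (fun k m => xC ^ 2 * xA ^ 2 * (4 ^ k * M2 (r k) ((xC ^ 2)⁻¹ * (4 ^ k)⁻¹)
        ((xA ^ 2)⁻¹ * (4 ^ k)⁻¹) (FC k m) (FA k m)))
      (fun k m => xA ^ 2 * xB ^ 2 * (4 ^ k * M2 (r k) ((xA ^ 2)⁻¹ * (4 ^ k)⁻¹)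
        ((xB ^ 2)⁻¹ * (4 ^ k)⁻¹) (FA k m) (FB k m))) (w := xA⁻¹) (by positivity)
      (fun k m => mul_nonneg (by positivity) (mul_nonneg (by positivity)
        (M2_nonneg (hr _) (by positivity) (by positivity) _ _)))
      (fun k m => mul_nonneg (by positivity) (mul_nonneg (by positivity)
        (M2_nonneg (hr _) (by positivity) (by positivity) _ _))) ?_ hx hy)
    intro k hk m hm
    have hb := T3_st_sq_le (hr k) (hr2 k) (mul_pos h₀ (hk4 k)) (mul_pos h₁ (hk4 k))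
      (mul_pos h₂ (hk4 k)) (capA k hk m hm) (capB k hk m hm) (capC k hk m hm) a b e
    simp only [lw_mul'] at hb
    have hc := scale_sq a0 a1 a2 hb
    refine hc.trans (le_of_eq ?_)
    change 36 * (lv cA a * lv cB b * lv cC e)⁻¹ * (4 ^ k * M2 (r k) (lv cC e * (4 ^ k)⁻¹)
      (lv cA a * (4 ^ k)⁻¹) (FC k m) (FA k m) * (4 ^ k * M2 (r k) (lv cA a * (4 ^ k)⁻¹)
      (lv cB b * (4 ^ k)⁻¹) (FA k m) (FB k m))) = _
    rw [vA, vB, vC]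
    generalize M2 (r k) ((xC ^ 2)⁻¹ * (4 ^ k)⁻¹) ((xA ^ 2)⁻¹ * (4 ^ k)⁻¹) (FC k m) (FA k m) = M
    generalize M2 (r k) ((xA ^ 2)⁻¹ * (4 ^ k)⁻¹) ((xB ^ 2)⁻¹ * (4 ^ k)⁻¹) (FA k m) (FB k m) = M'
    field_simp

theorem UG_B (hA : 0 < cA) (hB : 0 < cB) (hC : 0 < cC)
    (capA : ∀ k ∈ Icc 1 N, ∀ m ∈ s k, (1 - gramC ((cA ^ 2)⁻¹ * (4 ^ k)⁻¹) (FA k m)).PosSemidef)
    (capB : ∀ k ∈ Icc 1 N, ∀ m ∈ s k, (1 - gramC ((cB ^ 2)⁻¹ * (4 ^ k)⁻¹) (FB k m)).PosSemidef)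
    (capC : ∀ k ∈ Icc 1 N, ∀ m ∈ s k, (1 - gramC ((cC ^ 2)⁻¹ * (4 ^ k)⁻¹) (FC k m)).PosSemidef)
    (a b e : ℕ) {x y : ℝ}
    (hx : RP r N s (cA / 2 ^ (a - 1)) (cB / 2 ^ (b - 1)) FA FB ≤ x)
    (hy : RP r N s (cB / 2 ^ (b - 1)) (cC / 2 ^ (e - 1)) FB FC ≤ y) :
    UG r N s cA cB cC FA FB FC a b e ≤ UG r N s cA cB cC FA FB FC a (b + 1) e +
      6 * ((cB / 2 ^ (b - 1))⁻¹ * √(x * y)) := by
  rw [UG_cyc, UG_cyc (b := b + 1)]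
  exact UG_A hr hr2 hB hC hA capB capC capA b e a hx hy

theorem UG_C (hA : 0 < cA) (hB : 0 < cB) (hC : 0 < cC)
    (capA : ∀ k ∈ Icc 1 N, ∀ m ∈ s k, (1 - gramC ((cA ^ 2)⁻¹ * (4 ^ k)⁻¹) (FA k m)).PosSemidef)
    (capB : ∀ k ∈ Icc 1 N, ∀ m ∈ s k, (1 - gramC ((cB ^ 2)⁻¹ * (4 ^ k)⁻¹) (FB k m)).PosSemidef)
    (capC : ∀ k ∈ Icc 1 N, ∀ m ∈ s k, (1 - gramC ((cC ^ 2)⁻¹ * (4 ^ k)⁻¹) (FC k m)).PosSemidef)
    (a b e : ℕ) {x y : ℝ}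
    (hx : RP r N s (cB / 2 ^ (b - 1)) (cC / 2 ^ (e - 1)) FB FC ≤ x)
    (hy : RP r N s (cC / 2 ^ (e - 1)) (cA / 2 ^ (a - 1)) FC FA ≤ y) :
    UG r N s cA cB cC FA FB FC a b e ≤ UG r N s cA cB cC FA FB FC a b (e + 1) +
      6 * ((cC / 2 ^ (e - 1))⁻¹ * √(x * y)) := by
  rw [UG_cyc, UG_cyc (e := e + 1), UG_cyc, UG_cyc (b := e + 1)]
  exact UG_A hr hr2 hC hA hB capC capA capB e a b hx hy

/-- Decay in the sum of the three indices. -/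
theorem UG_tail (hA : 0 < cA) (hB : 0 < cB) (hC : 0 < cC)
    (capA : ∀ k ∈ Icc 1 N, ∀ m ∈ s k, (1 - gramC ((cA ^ 2)⁻¹ * (4 ^ k)⁻¹) (FA k m)).PosSemidef)
    (capB : ∀ k ∈ Icc 1 N, ∀ m ∈ s k, (1 - gramC ((cB ^ 2)⁻¹ * (4 ^ k)⁻¹) (FB k m)).PosSemidef)
    (capC : ∀ k ∈ Icc 1 N, ∀ m ∈ s k, (1 - gramC ((cC ^ 2)⁻¹ * (4 ^ k)⁻¹) (FC k m)).PosSemidef) :
    ∃ K : ℝ, 0 ≤ K ∧ ∀ a b e : ℕ,
      UG r N s cA cB cC FA FB FC a b e ≤ K * (2 ^ (a + b + e))⁻¹ := by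
  have h₀ : 0 < (cA ^ 2)⁻¹ := by positivity
  have h₁ : 0 < (cB ^ 2)⁻¹ := by positivity
  have h₂ : 0 < (cC ^ 2)⁻¹ := by positivity
  have q : ∀ k : ℕ, (0 : ℝ) < (4 ^ k)⁻¹ := fun k => by positivity
  set κ : ℝ → ℕ → ℝ := fun x k =>
    √(4 * ((x ^ 2)⁻¹ * (4 ^ k)⁻¹)⁻¹ * (Fintype.card (ι k) : ℝ)) with hκ
  set κ' : ℝ → ℕ → ℝ := fun x k => √(4 * ((x ^ 2)⁻¹ * (4 ^ k)⁻¹)⁻¹) with hκ'
  have nκ : ∀ x k, 0 ≤ κ x k := fun x k => Real.sqrt_nonneg _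
  have nκ' : ∀ x k, 0 ≤ κ' x k := fun x k => Real.sqrt_nonneg _
  refine ⟨∑ k ∈ Icc 1 N, ∑ m ∈ s k, (2 ^ k : ℝ)⁻¹ * (κ' cA k * (κ cB k * κ cC k)),
    sum_nonneg fun k _ => sum_nonneg fun m _ => ?_, fun a b e => ?_⟩
  · have := nκ' cA k
    have := nκ cB k
    have := nκ cC k
    positivity
  unfold UG
  rw [sum_mul]
  refine sum_le_sum fun k hk => ?_
  rw [sum_mul]
  refine sum_le_sum fun m hm => ?_
  have h2k : (0 : ℝ) < (2 ^ k)⁻¹ := by positivity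
  rw [abs_mul, abs_of_pos h2k, mul_assoc ((2 ^ k : ℝ)⁻¹)]
  refine mul_le_mul_of_nonneg_left ?_ h2k.le
  have dB := hs_rg_decay (mul_pos h₁ (q k)) (capB k hk m hm) b
  have dC := hs_rg_decay (mul_pos h₂ (q k)) (capC k hk m hm) e
  have oA := rg_op (mul_pos h₀ (q k)) (capA k hk m hm) a
  have dA : √(4 * ((4 : ℝ) ^ a * ((cA ^ 2)⁻¹ * (4 ^ k)⁻¹))⁻¹) = κ' cA k * (2 ^ a)⁻¹ := by
    have h4 : ((4 : ℝ) ^ a)⁻¹ = ((2 ^ a)⁻¹) ^ 2 := by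
      rw [inv_pow, ← pow_mul, mul_comm a 2, pow_mul]; norm_num
    have e1 : 4 * ((4 : ℝ) ^ a * ((cA ^ 2)⁻¹ * (4 ^ k)⁻¹))⁻¹ =
        (4 * ((cA ^ 2)⁻¹ * (4 ^ k)⁻¹)⁻¹) * ((2 ^ a)⁻¹) ^ 2 := by
      rw [mul_inv, h4]
      ring
    rw [e1, Real.sqrt_mul (by positivity), Real.sqrt_sq (by positivity)]
  have h := T3_op_le (hr k) (hr2 k) (by positivity :
    (0 : ℝ) ≤ 4 * ((4 : ℝ) ^ a * ((cA ^ 2)⁻¹ * (4 ^ k)⁻¹))⁻¹) oA
    (le_refl ((rg ((cB ^ 2)⁻¹ * (4 ^ k)⁻¹) (FB k m) b)ᵀ *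
      rg ((cB ^ 2)⁻¹ * (4 ^ k)⁻¹) (FB k m) b).trace)
    (le_refl ((rg ((cC ^ 2)⁻¹ * (4 ^ k)⁻¹) (FC k m) e)ᵀ *
      rg ((cC ^ 2)⁻¹ * (4 ^ k)⁻¹) (FC k m) e).trace)
  refine h.trans ?_
  rw [dA]
  have m1 := mul_le_mul dB dC (Real.sqrt_nonneg _) (by positivity)
  have m2 := mul_le_mul_of_nonneg_left m1 (mul_nonneg (nκ' cA k) (by positivity :
    (0 : ℝ) ≤ (2 ^ a)⁻¹))
  refine m2.trans (le_of_eq ?_)
  rw [hκ]
  simp only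
  rw [pow_add, pow_add, mul_inv, mul_inv]
  ring


end

/-- **The stage sum**, arbitrary index types and involutions. -/
theorem stageU {P : Type*} {ι : ℕ → Type} [∀ k, Fintype (ι k)] [∀ k, DecidableEq (ι k)]
    {r : ∀ k, Matrix (ι k) (ι k) ℝ} {N : ℕ} {s : ℕ → Finset P} {cA cB cC : ℝ}
    {FA FB FC : ∀ k, P → Matrix (ι k) (ι k) ℝ}
    (hr : ∀ k, (r k)ᵀ = r k) (hr2 : ∀ k, r k * r k = 1) (hA : 0 < cA) (hB : 0 < cB) (hC : 0 < cC)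
    (capA : ∀ k ∈ Icc 1 N, ∀ m ∈ s k, (1 - gramC ((cA ^ 2)⁻¹ * (4 ^ k)⁻¹) (FA k m)).PosSemidef)
    (capB : ∀ k ∈ Icc 1 N, ∀ m ∈ s k, (1 - gramC ((cB ^ 2)⁻¹ * (4 ^ k)⁻¹) (FB k m)).PosSemidef)
    (capC : ∀ k ∈ Icc 1 N, ∀ m ∈ s k, (1 - gramC ((cC ^ 2)⁻¹ * (4 ^ k)⁻¹) (FC k m)).PosSemidef)
    {θ τ P₀ PA PB κ' : ℝ} (hθ : 0 < θ) (hτA : cA ≤ τ) (hτB : cB ≤ τ) (hP₀ : 0 ≤ P₀)
    (hPA : 0 ≤ PA) (hPB : 0 ≤ PB) (hκ' : 0 ≤ κ')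
    (hAB : ∀ x, 0 < x → x ≤ τ → RP r N s x x FA FB ≤ P₀ * (x ^ 2 * √(τ / x)))
    (hBC : ∀ x, 0 < x → x ≤ τ → RP r N s x (θ * x) FB FC ≤ PB * (x ^ 2 * √(τ / x)))
    (hCA : ∀ x, 0 < x → x ≤ τ → RP r N s (θ * x) x FC FA ≤ PA * (x ^ 2 * √(τ / x)))
    (hT : ∀ x, θ * τ ≤ x → x ≤ cC → √(RP r N s cB x FB FC * RP r N s x cA FC FA) ≤ κ' * x)
    {L₀ : ℕ} (hL : cC / 2 ^ (L₀ - 1) ≤ θ * τ) :
    UG r N s cA cB cC FA FB FC 0 0 0 ≤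
      81 * (√(P₀ * PA) + √(P₀ * PB) + √(PA * PB) / θ) * τ + 6 * κ' * L₀ := by
  obtain ⟨K, _, hK⟩ := UG_tail (FA := FA) (FB := FB) (FC := FC) hr hr2 hA hB hC capA capB capC
  set κ : ℝ := 6 * (√(P₀ * PA) + √(P₀ * PB) + √(PA * PB) / θ) with hκ
  have τ0 : 0 < τ := hA.trans_le hτA
  have n1 : 0 ≤ √(P₀ * PA) := Real.sqrt_nonneg _
  have n2 : 0 ≤ √(P₀ * PB) := Real.sqrt_nonneg _
  have n3 : 0 ≤ √(PA * PB) / θ := by positivity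
  have κ0 : 0 ≤ κ := by positivity
  have nR : ∀ {x y : ℝ} {F H : ∀ k, P → Matrix (ι k) (ι k) ℝ}, 0 ≤ RP r N s x y F H :=
    fun {_ _ _ _} => RP_nonneg hr
  have key : ∀ {q P P' x y : ℝ}, 0 ≤ q → 0 ≤ P → 0 ≤ P' → 0 ≤ x → 0 ≤ y → x ≤ P * q →
      y ≤ P' * q → √(x * y) ≤ √(P * P') * q := by
    intro q P P' x y hh hP hP' hx0 hy0 hx hy
    have e : √(P * P') * q = √((P * P') * q ^ 2) := by
      rw [Real.sqrt_mul (mul_nonneg hP hP') (q ^ 2), Real.sqrt_sq hh]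
    rw [e]
    refine Real.sqrt_le_sqrt ((mul_le_mul hx hy hy0 (by positivity)).trans (le_of_eq ?_))
    ring
  have lvA : ∀ a : ℕ, cA / 2 ^ (a - 1) ≤ cA := fun a => div_le_self hA.le (one_le_pow₀ (by norm_num))
  have lvB : ∀ a : ℕ, cB / 2 ^ (a - 1) ≤ cB := fun a => div_le_self hB.le (one_le_pow₀ (by norm_num))
  have lvC : ∀ a : ℕ, cC / 2 ^ (a - 1) ≤ cC := fun a => div_le_self hC.le (one_le_pow₀ (by norm_num))
  have main := schedS (f := UG r N s cA cB cC FA FB FC) (θ := θ) (τ := τ) (κ := κ) (κ' := 6 * κ')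
    hA hB hC hθ hτA hτB κ0 (by positivity) hK hL (fun a b e h1 h2 => ?_) (fun a b e h1 h2 => ?_)
    (fun a b e h0 h1 h2 => ?_) (fun a b e h0 => ?_)
  · refine main.trans (le_of_eq ?_)
    rw [hκ]
    ring
  · set h := cA / 2 ^ (a - 1) with hh
    have ph : 0 < h := by positivity
    have pB : 0 < cB / 2 ^ (b - 1) := by positivity
    have pC : 0 < cC / 2 ^ (e - 1) := by positivity
    have hτ : h ≤ τ := (lvA a).trans hτA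
    have r1 : RP r N s (cC / 2 ^ (e - 1)) h FC FA ≤ PA * (h ^ 2 * √(τ / h)) :=
      (RP_mono hr pC ph h2 le_rfl).trans (hCA h ph hτ)
    have r2 : RP r N s h (cB / 2 ^ (b - 1)) FA FB ≤ P₀ * (h ^ 2 * √(τ / h)) :=
      (RP_mono hr ph pB le_rfl h1).trans (hAB h ph hτ)
    refine (UG_A hr hr2 hA hB hC capA capB capC a b e le_rfl le_rfl).trans (add_le_add le_rfl ?_)
    rw [← hh]
    have k1 := key (by positivity) hPA hP₀ nR nR r1 r2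
    rw [mul_comm PA P₀] at k1
    have k2 := mul_le_mul_of_nonneg_left k1 (by positivity : 0 ≤ 6 * h⁻¹)
    have k3 : 6 * h⁻¹ * (√(P₀ * PA) * (h ^ 2 * √(τ / h))) = 6 * √(P₀ * PA) * (h * √(τ / h)) := by
      field_simp
    rw [k3, mul_sqrt_div ph τ0.le] at k2
    have k4 : 6 * √(P₀ * PA) * √(τ * h) ≤ κ * √(τ * h) := by
      refine mul_le_mul_of_nonneg_right ?_ (Real.sqrt_nonneg _)
      rw [hκ]
      linarith
    linarith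
  · set h := cB / 2 ^ (b - 1) with hh
    have ph : 0 < h := by positivity
    have pA : 0 < cA / 2 ^ (a - 1) := by positivity
    have pC : 0 < cC / 2 ^ (e - 1) := by positivity
    have hτ : h ≤ τ := (lvB b).trans hτB
    have r1 : RP r N s (cA / 2 ^ (a - 1)) h FA FB ≤ P₀ * (h ^ 2 * √(τ / h)) :=
      (RP_mono hr pA ph h1 le_rfl).trans (hAB h ph hτ)
    have r2 : RP r N s h (cC / 2 ^ (e - 1)) FB FC ≤ PB * (h ^ 2 * √(τ / h)) :=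
      (RP_mono hr ph pC le_rfl h2).trans (hBC h ph hτ)
    refine (UG_B hr hr2 hA hB hC capA capB capC a b e le_rfl le_rfl).trans (add_le_add le_rfl ?_)
    rw [← hh]
    have k1 := key (by positivity) hP₀ hPB nR nR r1 r2
    have k2 := mul_le_mul_of_nonneg_left k1 (by positivity : 0 ≤ 6 * h⁻¹)
    have k3 : 6 * h⁻¹ * (√(P₀ * PB) * (h ^ 2 * √(τ / h))) = 6 * √(P₀ * PB) * (h * √(τ / h)) := by
      field_simp
    rw [k3, mul_sqrt_div ph τ0.le] at k2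
    have k4 : 6 * √(P₀ * PB) * √(τ * h) ≤ κ * √(τ * h) := by
      refine mul_le_mul_of_nonneg_right ?_ (Real.sqrt_nonneg _)
      rw [hκ]
      linarith
    linarith
  · set x := cC / 2 ^ (e - 1) with hx
    have px : 0 < x := by positivity
    set h := x / θ with hh
    have ph : 0 < h := by positivity
    have ex : x = θ * h := by rw [hh]; field_simp
    have hτ : h ≤ τ := by rw [hh, div_le_iff₀ hθ]; linarith
    have pA : 0 < cA / 2 ^ (a - 1) := by positivity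
    have pB : 0 < cB / 2 ^ (b - 1) := by positivity
    have g1 : cA / 2 ^ (a - 1) ≤ h := by rw [hh, le_div_iff₀ hθ]; linarith
    have g2 : cB / 2 ^ (b - 1) ≤ h := by rw [hh, le_div_iff₀ hθ]; linarith
    have r1 : RP r N s (cB / 2 ^ (b - 1)) x FB FC ≤ PB * (h ^ 2 * √(τ / h)) :=
      (RP_mono hr pB px g2 ex.le).trans (hBC h ph hτ)
    have r2 : RP r N s x (cA / 2 ^ (a - 1)) FC FA ≤ PA * (h ^ 2 * √(τ / h)) :=
      (RP_mono hr px pA ex.le g1).trans (hCA h ph hτ)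
    refine (UG_C hr hr2 hA hB hC capA capB capC a b e le_rfl le_rfl).trans (add_le_add le_rfl ?_)
    rw [← hx]
    have k1 := key (by positivity) hPB hPA nR nR r1 r2
    rw [mul_comm PB PA] at k1
    have k2 := mul_le_mul_of_nonneg_left k1 (by positivity : 0 ≤ 6 * x⁻¹)
    have k3 : 6 * x⁻¹ * (√(PA * PB) * (h ^ 2 * √(τ / h))) =
        6 * (√(PA * PB) / θ) * (h * √(τ / h)) := by
      rw [ex]
      field_simp
    rw [k3, mul_sqrt_div ph τ0.le] at k2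
    have e5 : τ / θ * x = τ * h := by rw [hh]; ring
    rw [e5]
    have k4 : 6 * (√(PA * PB) / θ) * √(τ * h) ≤ κ * √(τ * h) := by
      refine mul_le_mul_of_nonneg_right ?_ (Real.sqrt_nonneg _)
      rw [hκ]
      linarith
    linarith
  · set x := cC / 2 ^ (e - 1) with hx
    have px : 0 < x := by positivity
    have pA : 0 < cA / 2 ^ (a - 1) := by positivity
    have pB : 0 < cB / 2 ^ (b - 1) := by positivity
    refine (UG_C hr hr2 hA hB hC capA capB capC a b e le_rfl le_rfl).trans (add_le_add le_rfl ?_)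
    rw [← hx]
    have r1 : RP r N s (cB / 2 ^ (b - 1)) x FB FC ≤ RP r N s cB x FB FC :=
      RP_mono hr pB px (lvB b) le_rfl
    have r2 : RP r N s x (cA / 2 ^ (a - 1)) FC FA ≤ RP r N s x cA FC FA :=
      RP_mono hr px pA le_rfl (lvA a)
    have k1 : √(RP r N s (cB / 2 ^ (b - 1)) x FB FC * RP r N s x (cA / 2 ^ (a - 1)) FC FA) ≤
        κ' * x := (Real.sqrt_le_sqrt (mul_le_mul r1 r2 nR nR)).trans (hT x h0.le (lvC e))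
    have k2 := mul_le_mul_of_nonneg_left k1 (by positivity : 0 ≤ 6 * x⁻¹)
    have k3 : 6 * x⁻¹ * (κ' * x) = 6 * κ' := by field_simp
    rw [k3] at k2
    linarith

end

end Vale.Agent.P141.H145.P
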