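import Vale.Agent.P141.H145.StageP
import Vale.Agent.P141.H408.SkelTI
import Vale.Agent.P141.H576.GlueW

/-!
# P141, line (A): leaf `StageS` of the skeletons (`H408.StageS`)

`stage3` with nodes in an arbitrary type; the labelled matrices of a node; `stageS`.
-/

namespace Vale.Agent.P141.H145.P

open Finset Matrix Vale.Agent.P075 Vale.Agent.P141.PL Vale.Agent.P141.PL.H588
open Vale.Agent.P141.PL.H804 Vale.Agent.P141.H958 Vale.Agent.P141.H609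
open Vale.Agent.P141.H145 (ea eb ec ea_ea eb_eb ec_ec rb rb_ea rb_eb rb_ec rb_symm rb_sq M2_pad
  T3_pad gramC_pad cap_pad smul_tmul_psd)
open Vale.Agent.P141.H585.PairCh (phs)
open Vale.Agent.P141.H103 (QW)
open Vale.Agent.P141.H677 (nf3)
open Vale.Agent.P141.H408 (QL hdL rAB rBC rCA StageC StageS)

noncomputable section

/-! ### the stage sum -/

/-- raw pair sum at the hub `η`, rectangular matrices -/
def RP3 {P : Type*} {η μ ν : ℕ → Type} [∀ k, Fintype (η k)] [∀ k, DecidableEq (η k)] [∀ k, Fintype (μ k)]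
    [∀ k, Fintype (ν k)] (h : ∀ k, Matrix (η k) (η k) ℝ) (N : ℕ) (s : ℕ → Finset P) (x y : ℝ)
    (F : ∀ k, P → Matrix (μ k) (η k) ℝ) (H : ∀ k, P → Matrix (η k) (ν k) ℝ) : ℝ :=
  ∑ k ∈ Icc 1 N, ∑ m ∈ s k, x ^ 2 * y ^ 2 * (4 ^ k *
    (phi (((x ^ 2)⁻¹ * (4 ^ k)⁻¹) • ((F k m)ᵀ * F k m)) *
      (h k * phi (((y ^ 2)⁻¹ * (4 ^ k)⁻¹) • (H k m * (H k m)ᵀ)) * h k)).trace)

/-- **The stage sum, three hubs.** -/
theorem stage3 {P : Type*} {α β γ : ℕ → Type} [∀ k, Fintype (α k)] [∀ k, DecidableEq (α k)]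
    [∀ k, Fintype (β k)] [∀ k, DecidableEq (β k)] [∀ k, Fintype (γ k)] [∀ k, DecidableEq (γ k)]
    {ha : ∀ k, Matrix (α k) (α k) ℝ} {hb : ∀ k, Matrix (β k) (β k) ℝ}
    {hc : ∀ k, Matrix (γ k) (γ k) ℝ} {N : ℕ} {s : ℕ → Finset P} {cA cB cC : ℝ}
    {FA : ∀ k, P → Matrix (α k) (β k) ℝ} {FB : ∀ k, P → Matrix (β k) (γ k) ℝ}
    {FC : ∀ k, P → Matrix (γ k) (α k) ℝ}
    (ha1 : ∀ k, (ha k)ᵀ = ha k) (ha2 : ∀ k, ha k * ha k = 1)
    (hb1 : ∀ k, (hb k)ᵀ = hb k) (hb2 : ∀ k, hb k * hb k = 1)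
    (hc1 : ∀ k, (hc k)ᵀ = hc k) (hc2 : ∀ k, hc k * hc k = 1)
    (hA : 0 < cA) (hB : 0 < cB) (hC : 0 < cC)
    (capA : ∀ k ∈ Icc 1 N, ∀ m ∈ s k,
      (1 - ((cA ^ 2)⁻¹ * (4 ^ k)⁻¹) • ((FA k m)ᵀ * FA k m)).PosSemidef)
    (capB : ∀ k ∈ Icc 1 N, ∀ m ∈ s k,
      (1 - ((cB ^ 2)⁻¹ * (4 ^ k)⁻¹) • ((FB k m)ᵀ * FB k m)).PosSemidef)
    (capC : ∀ k ∈ Icc 1 N, ∀ m ∈ s k,
      (1 - ((cC ^ 2)⁻¹ * (4 ^ k)⁻¹) • ((FC k m)ᵀ * FC k m)).PosSemidef)
    {θ τ P₀ PA PB κ' : ℝ} (hθ : 0 < θ) (hτA : cA ≤ τ) (hτB : cB ≤ τ) (hP₀ : 0 ≤ P₀)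
    (hPA : 0 ≤ PA) (hPB : 0 ≤ PB) (hκ' : 0 ≤ κ')
    (hAB : ∀ x, 0 < x → x ≤ τ → RP3 hb N s x x FA FB ≤ P₀ * (x ^ 2 * √(τ / x)))
    (hBC : ∀ x, 0 < x → x ≤ τ → RP3 hc N s x (θ * x) FB FC ≤ PB * (x ^ 2 * √(τ / x)))
    (hCA : ∀ x, 0 < x → x ≤ τ → RP3 ha N s (θ * x) x FC FA ≤ PA * (x ^ 2 * √(τ / x)))
    (hT : ∀ x, θ * τ ≤ x → x ≤ cC →
      √(RP3 hc N s cB x FB FC * RP3 ha N s x cA FC FA) ≤ κ' * x)
    {L₀ : ℕ} (hL : cC / 2 ^ (L₀ - 1) ≤ θ * τ) :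
    ∑ k ∈ Icc 1 N, ∑ m ∈ s k,
        |(2 ^ k : ℝ)⁻¹ * (ha k * FA k m * hb k * FB k m * hc k * FC k m).trace| ≤
      81 * (√(P₀ * PA) + √(P₀ * PB) + √(PA * PB) / θ) * τ + 6 * κ' * L₀ := by
  set r : ∀ k, Matrix (α k ⊕ (β k ⊕ γ k)) (α k ⊕ (β k ⊕ γ k)) ℝ := fun k =>
    rb (ha k) (hb k) (hc k) with hr
  set GA : ∀ k, P → Matrix (α k ⊕ (β k ⊕ γ k)) (α k ⊕ (β k ⊕ γ k)) ℝ := fun k m =>
    ea (α k) (β k) (γ k) * FA k m * (eb (α k) (β k) (γ k))ᵀ with hGA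
  set GB : ∀ k, P → Matrix (α k ⊕ (β k ⊕ γ k)) (α k ⊕ (β k ⊕ γ k)) ℝ := fun k m =>
    eb (α k) (β k) (γ k) * FB k m * (ec (α k) (β k) (γ k))ᵀ with hGB
  set GC : ∀ k, P → Matrix (α k ⊕ (β k ⊕ γ k)) (α k ⊕ (β k ⊕ γ k)) ℝ := fun k m =>
    ec (α k) (β k) (γ k) * FC k m * (ea (α k) (β k) (γ k))ᵀ with hGC
  have q1 : ∀ k, (eb (α k) (β k) (γ k))ᵀ * r k * eb (α k) (β k) (γ k) = hb k := fun k => by
    rw [Matrix.mul_assoc, hr]
    simp only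
    rw [rb_eb, ← Matrix.mul_assoc, eb_eb, Matrix.one_mul]
  have q2 : ∀ k, (ec (α k) (β k) (γ k))ᵀ * r k * ec (α k) (β k) (γ k) = hc k := fun k => by
    rw [Matrix.mul_assoc, hr]
    simp only
    rw [rb_ec, ← Matrix.mul_assoc, ec_ec, Matrix.one_mul]
  have q3 : ∀ k, (ea (α k) (β k) (γ k))ᵀ * r k * ea (α k) (β k) (γ k) = ha k := fun k => by
    rw [Matrix.mul_assoc, hr]
    simp only
    rw [rb_ea, ← Matrix.mul_assoc, ea_ea, Matrix.one_mul]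
  have eAB : ∀ x y : ℝ, RP r N s x y GA GB = RP3 hb N s x y FA FB := fun x y => by
    unfold RP RP3
    refine sum_congr rfl fun k _ => sum_congr rfl fun m _ => ?_
    rw [hGA, hGB]
    simp only
    rw [M2_pad (eb_eb _ _ _) (ea_ea _ _ _) (ec_ec _ _ _) (q1 k) (by positivity) (by positivity)]
  have eBC : ∀ x y : ℝ, RP r N s x y GB GC = RP3 hc N s x y FB FC := fun x y => by
    unfold RP RP3
    refine sum_congr rfl fun k _ => sum_congr rfl fun m _ => ?_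
    rw [hGB, hGC]
    simp only
    rw [M2_pad (ec_ec _ _ _) (eb_eb _ _ _) (ea_ea _ _ _) (q2 k) (by positivity) (by positivity)]
  have eCA : ∀ x y : ℝ, RP r N s x y GC GA = RP3 ha N s x y FC FA := fun x y => by
    unfold RP RP3
    refine sum_congr rfl fun k _ => sum_congr rfl fun m _ => ?_
    rw [hGC, hGA]
    simp only
    rw [M2_pad (ea_ea _ _ _) (ec_ec _ _ _) (eb_eb _ _ _) (q3 k) (by positivity) (by positivity)]
  have main := stageU (r := r) (FA := GA) (FB := GB) (FC := GC)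
    (fun k => rb_symm (ha1 k) (hb1 k) (hc1 k)) (fun k => rb_sq (ha2 k) (hb2 k) (hc2 k)) hA hB hC
    (fun k hk m hm => by
      rw [hGA]
      simp only
      rw [gramC_pad (ea_ea _ _ _)]
      exact cap_pad (eb_eb _ _ _) (capA k hk m hm))
    (fun k hk m hm => by
      rw [hGB]
      simp only
      rw [gramC_pad (eb_eb _ _ _)]
      exact cap_pad (ec_ec _ _ _) (capB k hk m hm))
    (fun k hk m hm => by
      rw [hGC]
      simp only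
      rw [gramC_pad (ec_ec _ _ _)]
      exact cap_pad (ea_ea _ _ _) (capC k hk m hm))
    hθ hτA hτB hP₀ hPA hPB hκ' (fun x h1 h2 => by rw [eAB]; exact hAB x h1 h2)
    (fun x h1 h2 => by rw [eBC]; exact hBC x h1 h2) (fun x h1 h2 => by rw [eCA]; exact hCA x h1 h2)
    (fun x h1 h2 => by rw [eBC, eCA]; exact hT x h1 h2) hL
  refine le_trans (le_of_eq ?_) main
  unfold UG
  refine sum_congr rfl fun k _ => sum_congr rfl fun m _ => ?_
  congr 2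
  exact (T3_pad (FA k m) (FB k m) (FC k m)).symm


/-! ### the caps of rows and columns -/

theorem row_cap {m n : Type*} [Fintype m] [DecidableEq m] [Fintype n] [DecidableEq n]
    {F : Matrix m n ℝ} {w : ℝ} (hw : 0 ≤ w) (h : (1 - w • (F * Fᵀ)).PosSemidef) :
    (1 - w • (Fᵀ * F)).PosSemidef := by
  have hs : (1 - w • (Fᵀ * F))ᵀ = 1 - w • (Fᵀ * F) := by
    rw [transpose_sub, transpose_one, transpose_smul, transpose_mul, transpose_transpose]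
  refine PosSemidef.of_dotProduct_mulVec_nonneg (by
    change (1 - w • (Fᵀ * F))ᴴ = _
    rw [conjTranspose_eq_transpose_of_trivial, hs]) fun x => ?_
  have hq : ∀ y : m → ℝ, 0 ≤ y ⬝ᵥ y - w * ((Fᵀ *ᵥ y) ⬝ᵥ (Fᵀ *ᵥ y)) := by
    intro y
    have h2 := h.dotProduct_mulVec_nonneg y
    rw [star_trivial, sub_mulVec, one_mulVec, smul_mulVec, dotProduct_sub, dotProduct_smul,
      smul_eq_mul, ← mulVec_mulVec, dotProduct_mulVec y F, ← mulVec_transpose] at h2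
    exact h2
  rw [star_trivial, sub_mulVec, one_mulVec, smul_mulVec, dotProduct_sub, dotProduct_smul,
    smul_eq_mul, ← mulVec_mulVec, dotProduct_mulVec x Fᵀ, vecMul_transpose]
  set y := F *ᵥ x with hy
  have h1 := hq y
  have h3 : y ⬝ᵥ y = (Fᵀ *ᵥ y) ⬝ᵥ x := by
    conv_lhs => rw [hy]
    rw [dotProduct_mulVec, ← mulVec_transpose, ← hy]
  have h4 : 0 ≤ (x - w • (Fᵀ *ᵥ y)) ⬝ᵥ (x - w • (Fᵀ *ᵥ y)) :=
    sum_nonneg fun _ _ => mul_self_nonneg _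
  rw [sub_dotProduct, dotProduct_sub, dotProduct_sub, smul_dotProduct, smul_dotProduct,
    dotProduct_smul, dotProduct_smul, dotProduct_comm x (Fᵀ *ᵥ y), ← h3] at h4
  simp only [smul_eq_mul] at h4
  have h5 := mul_nonneg hw h1
  nlinarith

/-! ### the labelled matrices of a node -/

section node

variable {κ : Type} [Fintype κ] [DecidableEq κ]

/-- `A` : rows `z`, columns `y` -/
def fA (A : ℤ → ℤ → ℝ) (k : ℕ) (m : Pt) : Matrix (Ix k) (Ix k) ℝ := fun i j =>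
  A (2 ^ k * m.1 + val k i) (2 ^ k * m.2.1 + val k j)

/-- `B` : rows `y`, columns `(x, label)` -/
def fB (B : ℤ → ℤ → κ → ℝ) (k : ℕ) (m : Pt) : Matrix (Ix k) (Ix k × κ) ℝ := fun j p =>
  B (2 ^ k * m.2.2 + val k p.1) (2 ^ k * m.2.1 + val k j) p.2

/-- `C` : rows `(x, label)`, columns `z` -/
def fC (C : ℤ → ℤ → κ → ℝ) (k : ℕ) (m : Pt) : Matrix (Ix k × κ) (Ix k) ℝ := fun p i =>
  C (2 ^ k * m.1 + val k i) (2 ^ k * m.2.2 + val k p.1) p.2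

theorem four_pow (k : ℕ) : (4 : ℝ) ^ k = 2 ^ k * 2 ^ k := by
  rw [← mul_pow]
  norm_num

omit [Fintype κ] [DecidableEq κ] in
theorem gA (A : ℤ → ℤ → ℝ) (k : ℕ) (m : Pt) :
    ((4 : ℝ) ^ k)⁻¹ • ((fA A k m)ᵀ * fA A k m) = Xg k k A m.1 m.2.1 := by
  rw [four_pow]
  rfl

omit [Fintype κ] [DecidableEq κ] in
theorem gA' (A : ℤ → ℤ → ℝ) (k : ℕ) (m : Pt) :
    ((4 : ℝ) ^ k)⁻¹ • (fA A k m * (fA A k m)ᵀ) = Xg k k (fun y z => A z y) m.2.1 m.1 := by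
  rw [four_pow]
  rfl

theorem gB (B : ℤ → ℤ → κ → ℝ) (k : ℕ) (m : Pt) :
    ((4 : ℝ) ^ k)⁻¹ • (fB B k m * (fB B k m)ᵀ) = QW k k B (fun _ => 1) m.2.2 m.2.1 := by
  ext j j'
  unfold H103.QW
  rw [four_pow, Matrix.smul_apply, smul_eq_mul, Matrix.mul_apply, H588.sum_iv,
    Fintype.sum_prod_type]
  congr 1
  refine sum_congr rfl fun p _ => ?_
  rw [one_mulVec]
  rfl

omit [DecidableEq κ] in
theorem gB' (B : ℤ → ℤ → κ → ℝ) (k : ℕ) (m : Pt) :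
    ((4 : ℝ) ^ k)⁻¹ • ((fB B k m)ᵀ * fB B k m) = QL k (fun y x => B x y) m.2.1 m.2.2 := by
  ext p q
  unfold H408.QL
  rw [four_pow, Matrix.smul_apply, smul_eq_mul, Matrix.mul_apply, H588.sum_iv]
  rfl

omit [DecidableEq κ] in
theorem gC (C : ℤ → ℤ → κ → ℝ) (k : ℕ) (m : Pt) :
    ((4 : ℝ) ^ k)⁻¹ • (fC C k m * (fC C k m)ᵀ) = QL k C m.1 m.2.2 := by
  ext p q
  unfold H408.QL
  rw [four_pow, Matrix.smul_apply, smul_eq_mul, Matrix.mul_apply, H588.sum_iv]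
  rfl

theorem gC' (C : ℤ → ℤ → κ → ℝ) (k : ℕ) (m : Pt) :
    ((4 : ℝ) ^ k)⁻¹ • ((fC C k m)ᵀ * fC C k m) =
      QW k k (fun x z => C z x) (fun _ => 1) m.2.2 m.1 := by
  ext j j'
  unfold H103.QW
  rw [four_pow, Matrix.smul_apply, smul_eq_mul, Matrix.mul_apply, H588.sum_iv,
    Fintype.sum_prod_type]
  congr 1
  refine sum_congr rfl fun p _ => ?_
  rw [one_mulVec]
  rfl

theorem phs_smul {η : Type*} [Fintype η] [DecidableEq η] (x : ℝ) (k : ℕ) (G : Matrix η η ℝ) :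
    phs (x ^ 2) (((4 : ℝ) ^ k)⁻¹ • G) = x ^ 2 • phi (((x ^ 2)⁻¹ * (4 ^ k)⁻¹) • G) := by
  unfold H585.PairCh.phs
  rw [smul_smul]

theorem tr_smul2 {η : Type*} [Fintype η] [DecidableEq η] (a b : ℝ) (P Q h : Matrix η η ℝ) (w : ℝ) :
    w * ((a • P) * (h * (b • Q) * h)).trace = a * b * (w * (P * (h * Q * h)).trace) := by
  simp only [Matrix.mul_smul, Matrix.smul_mul, trace_smul, smul_eq_mul]
  ring

theorem rAB_eq (A : ℤ → ℤ → ℝ) (B : ℤ → ℤ → κ → ℝ) (k : ℕ) (m : Pt) (x y : ℝ) :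
    rAB A B k m x y = x ^ 2 * y ^ 2 * (4 ^ k *
      (phi (((x ^ 2)⁻¹ * (4 ^ k)⁻¹) • ((fA A k m)ᵀ * fA A k m)) *
        (hd k * phi (((y ^ 2)⁻¹ * (4 ^ k)⁻¹) • (fB B k m * (fB B k m)ᵀ)) * hd k)).trace) := by
  unfold H408.rAB
  rw [← gA, ← gB, phs_smul, phs_smul, tr_smul2]

theorem rBC_eq (B C : ℤ → ℤ → κ → ℝ) (k : ℕ) (m : Pt) (x y : ℝ) :
    rBC B C k m x y = x ^ 2 * y ^ 2 * (4 ^ k *
      (phi (((x ^ 2)⁻¹ * (4 ^ k)⁻¹) • ((fB B k m)ᵀ * fB B k m)) *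
        (hdL κ k * phi (((y ^ 2)⁻¹ * (4 ^ k)⁻¹) • (fC C k m * (fC C k m)ᵀ)) * hdL κ k)).trace) := by
  unfold H408.rBC
  rw [← gB', ← gC, phs_smul, phs_smul, tr_smul2]

theorem rCA_eq (C : ℤ → ℤ → κ → ℝ) (A : ℤ → ℤ → ℝ) (k : ℕ) (m : Pt) (x y : ℝ) :
    rCA C A k m x y = x ^ 2 * y ^ 2 * (4 ^ k *
      (phi (((x ^ 2)⁻¹ * (4 ^ k)⁻¹) • ((fC C k m)ᵀ * fC C k m)) *
        (hd k * phi (((y ^ 2)⁻¹ * (4 ^ k)⁻¹) • (fA A k m * (fA A k m)ᵀ)) * hd k)).trace) := by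
  unfold H408.rCA
  rw [← gA', ← gC', phs_smul, phs_smul, tr_smul2]

theorem hdL_diag {k : ℕ} (hk : 1 ≤ k) (m : ℤ) :
    hdL κ k = Matrix.diagonal fun p : Ix k × κ => hs k (2 ^ k * m + val k p.1) := by
  ext p q
  unfold H408.hdL
  rw [H576.hd_eq hk m, Matrix.diagonal_apply, Matrix.diagonal_apply]
  by_cases h : p = q
  · subst h
    simp
  · rw [if_neg h]
    split_ifs with h1 h2
    · exact absurd (Prod.ext h2 h1) h
    · rfl
    · rfl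

theorem hdL_symm (k : ℕ) : (hdL κ k)ᵀ = hdL κ k := by
  ext p q
  rw [transpose_apply]
  unfold H408.hdL
  have h := congrFun (congrFun (hd_symm k) p.1) q.1
  rw [transpose_apply] at h
  simp only [eq_comm (a := q.2), h]

theorem hdL_sq (k : ℕ) : hdL κ k * hdL κ k = 1 := by
  ext p q
  rw [Matrix.mul_apply, Fintype.sum_prod_type]
  unfold H408.hdL
  have h := congrFun (congrFun (hd_sq k) p.1) q.1
  rw [Matrix.mul_apply] at h
  by_cases hpq : p.2 = q.2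
  · have e : ∀ i : Ix k, ∑ l : κ, (if p.2 = l then hd k p.1 i else 0) *
        (if l = q.2 then hd k i q.1 else 0) = hd k p.1 i * hd k i q.1 := by
      intro i
      rw [sum_eq_single q.2]
      · rw [if_pos hpq, if_pos rfl]
      · intro l _ hl
        rw [if_neg hl, mul_zero]
      · intro hl
        exact absurd (mem_univ _) hl
    rw [sum_congr rfl fun i _ => e i, h, Matrix.one_apply, Matrix.one_apply]
    by_cases h1 : p.1 = q.1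
    · rw [if_pos h1, if_pos (Prod.ext h1 hpq)]
    · rw [if_neg h1, if_neg fun h2 => h1 (congrArg Prod.fst h2)]
  · rw [Matrix.one_apply, if_neg fun h2 => hpq (congrArg Prod.snd h2)]
    refine sum_eq_zero fun i _ => sum_eq_zero fun l _ => ?_
    by_cases h1 : p.2 = l
    · rw [if_neg (fun h2 : l = q.2 => hpq (h1.trans h2)), mul_zero]
    · rw [if_neg h1, zero_mul]

/-- **The node form as a trace.** -/
theorem nf3_tr (A : ℤ → ℤ → ℝ) (B C : ℤ → ℤ → κ → ℝ) {k : ℕ} (hk : 1 ≤ k) (m : Pt) :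
    nf3 A B C k m = (2 ^ k : ℝ)⁻¹ *
      (hd k * fA A k m * hd k * fB B k m * hdL κ k * fC C k m).trace := by
  unfold H677.nf3
  congr 1
  rw [H588.sum_iv]
  simp only [H588.sum_iv k m.2.2, H588.sum_iv k m.2.1]
  have e1 : hd k * fA A k m * hd k * fB B k m * hdL κ k * fC C k m =
      (Matrix.diagonal fun i : Ix k => hs k (2 ^ k * m.1 + val k i)) * fA A k m *
      (Matrix.diagonal fun i : Ix k => hs k (2 ^ k * m.2.1 + val k i)) * fB B k m *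
      (Matrix.diagonal fun p : Ix k × κ => hs k (2 ^ k * m.2.2 + val k p.1)) * fC C k m := by
    rw [← H576.hd_eq hk m.1, ← H576.hd_eq hk m.2.1, ← hdL_diag hk m.2.2]
  rw [e1, Matrix.trace]
  refine sum_congr rfl fun i _ => ?_
  rw [Matrix.diag_apply, Matrix.mul_apply, Fintype.sum_prod_type]
  refine sum_congr rfl fun p _ => ?_
  have e2 : ∀ l : κ, ((Matrix.diagonal fun i : Ix k => hs k (2 ^ k * m.1 + val k i)) * fA A k m *
      (Matrix.diagonal fun i : Ix k => hs k (2 ^ k * m.2.1 + val k i)) * fB B k m *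
      (Matrix.diagonal fun p : Ix k × κ => hs k (2 ^ k * m.2.2 + val k p.1))) i (p, l) =
      ∑ j : Ix k, hs k (2 ^ k * m.1 + val k i) * hs k (2 ^ k * m.2.2 + val k p) *
        hs k (2 ^ k * m.2.1 + val k j) * (fA A k m i j * fB B k m j (p, l)) := by
    intro l
    rw [Matrix.mul_diagonal, Matrix.mul_apply, sum_mul]
    refine sum_congr rfl fun j _ => ?_
    rw [Matrix.mul_diagonal, Matrix.diagonal_mul]
    ring
  simp only [e2]
  have e3 : ∀ l : κ, (∑ j : Ix k, hs k (2 ^ k * m.1 + val k i) * hs k (2 ^ k * m.2.2 + val k p) *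
        hs k (2 ^ k * m.2.1 + val k j) * (fA A k m i j * fB B k m j (p, l))) *
        fC C k m (p, l) i = ∑ j : Ix k, hs k (2 ^ k * m.1 + val k i) *
        hs k (2 ^ k * m.2.2 + val k p) * hs k (2 ^ k * m.2.1 + val k j) *
        (fA A k m i j * (fB B k m j (p, l) * fC C k m (p, l) i)) := by
    intro l
    rw [sum_mul]
    exact sum_congr rfl fun j _ => by ring
  simp only [e3]
  rw [sum_comm]
  refine sum_congr rfl fun j _ => ?_
  rw [← mul_sum, ← mul_sum]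
  rfl

end node

/-! ### the leaf -/

theorem quarter_le {τ h : ℝ} (hh : 0 < h) (hτ : h ≤ τ) : (τ / h) ^ (1 / 4 : ℝ) ≤ √(τ / h) := by
  rw [Real.sqrt_eq_rpow]
  refine Real.rpow_le_rpow_of_exponent_le ?_ (by norm_num)
  rwa [one_le_div hh]

theorem cap_of {η : Type*} [Fintype η] [DecidableEq η] {c : ℝ} (hc : 0 < c) (k : ℕ)
    {G X : Matrix η η ℝ} (hG : ((4 : ℝ) ^ k)⁻¹ • G = X) (h : ((c ^ 2) • 1 - X).PosSemidef) :
    (1 - ((c ^ 2)⁻¹ * (4 ^ k)⁻¹) • G).PosSemidef := by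
  have h1 := h.smul (by positivity : (0 : ℝ) ≤ (c ^ 2)⁻¹)
  rwa [smul_sub, smul_smul, inv_mul_cancel₀ (by positivity), one_smul, ← hG, smul_smul] at h1

/-- **`H408.StageC 81`.** -/
theorem stageC : StageC 81 := by
  intro κ _ _ J X K s A B C cA cB cC θ τ P₀ PA PB κ' L₀ hA hτA hB hτB hC hθ hP₀ hPA hPB hκ' hL
    capA capB capC hAB hBC hCA hT
  set T : ℕ → Finset (Σ _ : J, Pt) := fun k => X.sigma fun i => s i k with hTd
  have sw : ∀ f : J → ℕ → Pt → ℝ, ∑ i ∈ X, ∑ k ∈ Icc 1 K, ∑ m ∈ s i k, f i k m =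
      ∑ k ∈ Icc 1 K, ∑ q ∈ T k, f q.1 k q.2 := by
    intro f
    rw [sum_comm]
    refine sum_congr rfl fun k _ => ?_
    rw [hTd]
    simp only
    rw [sum_sigma]
  have mT : ∀ {k : ℕ} {q : Σ _ : J, Pt}, q ∈ T k → q.1 ∈ X ∧ q.2 ∈ s q.1 k := by
    intro k q hq
    exact mem_sigma.1 hq
  have nn : ∀ {x : ℝ}, 0 < x → x ≤ τ → x ^ 2 * (τ / x) ^ (1 / 4 : ℝ) ≤ x ^ 2 * √(τ / x) :=
    fun h1 h2 => mul_le_mul_of_nonneg_left (quarter_le h1 h2) (by positivity)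
  have eAB : ∀ x y : ℝ, RP3 (P := Σ _ : J, Pt) (fun k => hd k) K T x y
      (fun k q => fA (A q.1 k q.2) k q.2) (fun k q => fB (B q.1 k q.2) k q.2) =
      ∑ i ∈ X, ∑ k ∈ Icc 1 K, ∑ m ∈ s i k, rAB (A i k m) (B i k m) k m x y := by
    intro x y
    rw [sw fun i k m => rAB (A i k m) (B i k m) k m x y]
    exact sum_congr rfl fun k _ => sum_congr rfl fun q _ => (rAB_eq _ _ k q.2 x y).symm
  have eBC : ∀ x y : ℝ, RP3 (P := Σ _ : J, Pt) (fun k => hdL κ k) K T x y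
      (fun k q => fB (B q.1 k q.2) k q.2) (fun k q => fC (C q.1 k q.2) k q.2) =
      ∑ i ∈ X, ∑ k ∈ Icc 1 K, ∑ m ∈ s i k, rBC (B i k m) (C i k m) k m x y := by
    intro x y
    rw [sw fun i k m => rBC (B i k m) (C i k m) k m x y]
    exact sum_congr rfl fun k _ => sum_congr rfl fun q _ => (rBC_eq _ _ k q.2 x y).symm
  have eCA : ∀ x y : ℝ, RP3 (P := Σ _ : J, Pt) (fun k => hd k) K T x y
      (fun k q => fC (C q.1 k q.2) k q.2) (fun k q => fA (A q.1 k q.2) k q.2) =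
      ∑ i ∈ X, ∑ k ∈ Icc 1 K, ∑ m ∈ s i k, rCA (C i k m) (A i k m) k m x y := by
    intro x y
    rw [sw fun i k m => rCA (C i k m) (A i k m) k m x y]
    exact sum_congr rfl fun k _ => sum_congr rfl fun q _ => (rCA_eq _ _ k q.2 x y).symm
  have main := stage3 (P := Σ _ : J, Pt) (N := K) (s := T) (ha := fun k => hd k)
    (hb := fun k => hd k) (hc := fun k => hdL κ k)
    (FA := fun k q => fA (A q.1 k q.2) k q.2) (FB := fun k q => fB (B q.1 k q.2) k q.2)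
    (FC := fun k q => fC (C q.1 k q.2) k q.2) (fun k => hd_symm k) (fun k => hd_sq k)
    (fun k => hd_symm k) (fun k => hd_sq k) (fun k => hdL_symm k) (fun k => hdL_sq k) hA hB hC
    (fun k hk q hq => cap_of hA k (gA _ k q.2) (capA q.1 (mT hq).1 k hk q.2 (mT hq).2))
    (fun k hk q hq => row_cap (by positivity)
      (cap_of hB k (gB _ k q.2) (capB q.1 (mT hq).1 k hk q.2 (mT hq).2)))
    (fun k hk q hq => cap_of hC k (gC' _ k q.2) (capC q.1 (mT hq).1 k hk q.2 (mT hq).2))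
    hθ hτA hτB hP₀ hPA hPB hκ'
    (fun x h1 h2 => by
      rw [eAB]
      exact (hAB x h1 h2).trans (mul_le_mul_of_nonneg_left (nn h1 h2) hP₀))
    (fun x h1 h2 => by
      rw [eBC]
      exact (hBC x h1 h2).trans (mul_le_mul_of_nonneg_left (nn h1 h2) hPB))
    (fun x h1 h2 => by
      rw [eCA]
      exact (hCA x h1 h2).trans (mul_le_mul_of_nonneg_left (nn h1 h2) hPA))
    (fun x h1 h2 => by rw [eBC, eCA]; exact hT x h1 h2) hL
  rw [sw fun i k m => |nf3 (A i k m) (B i k m) (C i k m) k m|]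
  have e : ∑ k ∈ Icc 1 K, ∑ q ∈ T k, |nf3 (A q.1 k q.2) (B q.1 k q.2) (C q.1 k q.2) k q.2| =
      ∑ k ∈ Icc 1 K, ∑ q ∈ T k, |(2 ^ k : ℝ)⁻¹ * (hd k * fA (A q.1 k q.2) k q.2 * hd k *
        fB (B q.1 k q.2) k q.2 * hdL κ k * fC (C q.1 k q.2) k q.2).trace| :=
    sum_congr rfl fun k hk => sum_congr rfl fun q _ => by
      rw [nf3_tr _ _ _ (mem_Icc.1 hk).1 q.2]
  rw [e]
  refine main.trans ?_
  have h1 : 0 ≤ κ' * L₀ := by positivity
  linarith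

/-- **[I6].** -/
theorem stageS : StageS := ⟨81, by norm_num, stageC⟩

end

end Vale.Agent.P141.H145.P
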