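import Vale.Agent.P141.H145.StageS
import Vale.Agent.P141.H581.StageY

/-!
# P141, line (A): the raw stage with slack (leaf `H408.StageY1`)

`stageYP`: `H581.stageY` with nodes in an arbitrary type, arbitrary index types, and the factor
`√(e₂ / h)` in the crude pair sums below `e₂`. `stage3Y`: three hubs, rectangular matrices.
`stageYC : H408.StageYC 81`.
-/

namespace Vale.Agent.P141.H145.P

open Finset Matrix Vale.Agent.P075 Vale.Agent.P141.PL Vale.Agent.P141.PL.H588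
open Vale.Agent.P141.PL.H804 Vale.Agent.P141.H958 Vale.Agent.P141.H609
open Vale.Agent.P141.H581 (sched1 sched2 sched4)
open Vale.Agent.P141.H145 (ea eb ec ea_ea eb_eb ec_ec rb rb_ea rb_eb rb_ec rb_symm rb_sq M2_pad
  T3_pad gramC_pad cap_pad smul_tmul_psd sq_lev mul_sqrt_div)
open Vale.Agent.P141.H677 (nf3)
open Vale.Agent.P141.H408 (QL hdL rAB rBC rCA StageYC StageY1)

noncomputable section

/-- **The raw stage sum with slack below `e₂`.** -/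
theorem stageYP {P : Type*} {ι : ℕ → Type} [∀ k, Fintype (ι k)] [∀ k, DecidableEq (ι k)]
    {r : ∀ k, Matrix (ι k) (ι k) ℝ} {N : ℕ} {s : ℕ → Finset P} {τ cC : ℝ}
    {FA FB FC : ∀ k, P → Matrix (ι k) (ι k) ℝ}
    (hr : ∀ k, (r k)ᵀ = r k) (hr2 : ∀ k, r k * r k = 1) (hτ : 0 < τ) (hC : 0 < cC)
    (capA : ∀ k ∈ Icc 1 N, ∀ m ∈ s k, (1 - gramC ((τ ^ 2)⁻¹ * (4 ^ k)⁻¹) (FA k m)).PosSemidef)
    (capB : ∀ k ∈ Icc 1 N, ∀ m ∈ s k, (1 - gramC ((τ ^ 2)⁻¹ * (4 ^ k)⁻¹) (FB k m)).PosSemidef)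
    (capC : ∀ k ∈ Icc 1 N, ∀ m ∈ s k, (1 - gramC ((cC ^ 2)⁻¹ * (4 ^ k)⁻¹) (FC k m)).PosSemidef)
    {P₀ P₁ QA QB Z κ' g σ e₂ : ℝ} (hP₀ : 0 ≤ P₀) (hQB0 : 0 ≤ QB)
    (hZ0 : 0 ≤ Z) (hκ : 0 ≤ κ') (he₂ : 0 < e₂) {D L₀ L₁ : ℕ}
    (hDσ : τ / 2 ^ (D - 1) ≤ σ) (hσ : σ ≤ e₂) (hL₀ : cC / 2 ^ (L₀ - 1) ≤ g)
    (hL₁ : cC / 2 ^ (L₁ - 1) ≤ e₂)
    (hAB : ∀ h, 0 < h → h ≤ τ → RP r N s h h FA FB ≤ P₀ * h ^ 2)
    (hT : ∀ x, g ≤ x → x ≤ cC → √(RP r N s τ x FB FC * RP r N s x τ FC FA) ≤ κ' * x)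
    (hQA : RP r N s g τ FC FA ≤ QA) (hQB : RP r N s τ g FB FC ≤ QB)
    (hCA : ∀ x, e₂ ≤ x → x ≤ g → RP r N s x σ FC FA ≤ P₁ * x ^ 2)
    (hZB : ∀ h, 0 < h → h ≤ e₂ → RP r N s h h FB FC ≤ Z * (h ^ 2 * √(e₂ / h)))
    (hZA : ∀ h, 0 < h → h ≤ e₂ → RP r N s h h FC FA ≤ Z * (h ^ 2 * √(e₂ / h))) :
    UG r N s τ τ cC FA FB FC 0 0 0 ≤ 6 * κ' * L₀ + 6 * D * (√(P₀ * QA) + √(P₀ * QB)) +
      6 * L₁ * √(P₁ * QB) + 81 * (P₀ + Z) * e₂ := by
  classical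
  have lp : ∀ a : ℕ, 0 < τ / 2 ^ (a - 1) := fun a => by positivity
  have lc : ∀ e : ℕ, 0 < cC / 2 ^ (e - 1) := fun e => by positivity
  have ll : ∀ a : ℕ, τ / 2 ^ (a - 1) ≤ τ := fun a => div_le_self hτ.le (one_le_pow₀ (by norm_num))
  have mono : ∀ {x : ℝ}, 0 ≤ x → ∀ {i j : ℕ}, i ≤ j → x / 2 ^ (j - 1) ≤ x / 2 ^ (i - 1) := by
    intro x hx i j hij
    exact div_le_div_of_nonneg_left hx (by positivity)
      (pow_le_pow_right₀ (by norm_num) (by omega))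
  -- the three indices
  have hex : ∃ e : ℕ, cC / 2 ^ (e - 1) ≤ g := ⟨L₀, hL₀⟩
  set E := Nat.find hex with hE
  have hE1 : cC / 2 ^ (E - 1) ≤ g := Nat.find_spec hex
  have hE2 : E ≤ L₀ := Nat.find_min' hex hL₀
  have hE3 : ∀ e < E, g < cC / 2 ^ (e - 1) := fun e he => not_le.1 (Nat.find_min hex he)
  have hex' : ∃ e : ℕ, cC / 2 ^ (e - 1) ≤ e₂ := ⟨L₁, hL₁⟩
  set E₁ := Nat.find hex' with hE₁
  have hF1 : cC / 2 ^ (E₁ - 1) ≤ e₂ := Nat.find_spec hex'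
  have hF2 : E₁ ≤ L₁ := Nat.find_min' hex' hL₁
  have hF3 : ∀ e < E₁, e₂ < cC / 2 ^ (e - 1) := fun e he => not_le.1 (Nat.find_min hex' he)
  set E' := max E E₁ with hE'
  have hxE' : cC / 2 ^ (E' - 1) ≤ e₂ := (mono hC.le (le_max_right E E₁)).trans hF1
  have hxD : τ / 2 ^ (D - 1) ≤ e₂ := hDσ.trans hσ
  -- part 1
  have q1 := sched1 (f := UG r N s τ τ cC FA FB FC) (κ := 6 * κ') (E := E) (fun e he => by
    have h := UG_C hr hr2 hτ hτ hC capA capB capC 0 0 e le_rfl le_rfl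
    simp only [Nat.zero_sub, pow_zero, div_one] at h
    refine h.trans (add_le_add_right (mul_le_mul_of_nonneg_left ?_ (by norm_num)) _)
    have pe := lc e
    have h2 := mul_le_mul_of_nonneg_left
      (hT _ (hE3 e he).le (div_le_self hC.le (one_le_pow₀ (by norm_num)))) (inv_nonneg.mpr pe.le)
    refine h2.trans (le_of_eq ?_)
    field_simp)
  -- part 2
  have key : ∀ {h x y q : ℝ}, 0 < h → 0 ≤ y → x ≤ P₀ * h ^ 2 → y ≤ q →
      h⁻¹ * √(x * y) ≤ √(P₀ * q) := by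
    intro h x y q hh hy hx hyq
    have h1 : x * y ≤ P₀ * h ^ 2 * q := (mul_le_mul_of_nonneg_right hx hy).trans
      (mul_le_mul_of_nonneg_left hyq (by positivity))
    refine (mul_le_mul_of_nonneg_left (Real.sqrt_le_sqrt h1) (by positivity)).trans (le_of_eq ?_)
    have hq : 0 ≤ q := hy.trans hyq
    rw [← Real.sqrt_sq (inv_nonneg.mpr hh.le), ← Real.sqrt_mul (by positivity)]
    congr 1
    field_simp
  have q2 := sched2 (f := UG r N s τ τ cC FA FB FC) (κA := 6 * √(P₀ * QA)) (κB := 6 * √(P₀ * QB))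
    (D := D) (E := E)
    (fun j _ => by
      refine (UG_A hr hr2 hτ hτ hC capA capB capC j j E le_rfl le_rfl).trans ?_
      refine add_le_add_right (mul_le_mul_of_nonneg_left ?_ (by norm_num)) _
      rw [mul_comm (RP r N s (cC / 2 ^ (E - 1)) (τ / 2 ^ (j - 1)) FC FA)]
      exact key (lp j) (RP_nonneg hr) (hAB _ (lp j) (ll j))
        ((RP_mono hr (lc E) (lp j) hE1 (ll j)).trans hQA))
    (fun j _ => by
      refine (UG_B hr hr2 hτ hτ hC capA capB capC (j + 1) j E le_rfl le_rfl).trans ?_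
      refine add_le_add_right (mul_le_mul_of_nonneg_left ?_ (by norm_num)) _
      refine key (lp j) (RP_nonneg hr) ?_ ((RP_mono hr (lp j) (lc E) (ll j) hE1).trans hQB)
      exact (RP_mono hr (lp (j + 1)) (lp j) (mono hτ.le (Nat.le_succ j)) le_rfl).trans
        (hAB _ (lp j) (ll j)))
  -- part 3
  have q3 := sched4 (f := UG r N s τ τ cC FA FB FC) (κ := 6 * √(P₁ * QB)) (D := D)
    (le_max_left E E₁) (fun e he he' => by
      have hee : e < E₁ := by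
        rcases lt_max_iff.1 he' with h | h
        · omega
        · exact h
      have l1 := (hF3 e hee).le
      have l2 : cC / 2 ^ (e - 1) ≤ g := (mono hC.le he).trans hE1
      refine (UG_C hr hr2 hτ hτ hC capA capB capC D D e le_rfl le_rfl).trans ?_
      refine add_le_add_right (mul_le_mul_of_nonneg_left ?_ (by norm_num)) _
      have pe := lc e
      have a1 : RP r N s (τ / 2 ^ (D - 1)) (cC / 2 ^ (e - 1)) FB FC ≤ QB :=
        (RP_mono hr (lp D) pe (ll D) l2).trans hQB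
      have a2 : RP r N s (cC / 2 ^ (e - 1)) (τ / 2 ^ (D - 1)) FC FA ≤
          P₁ * (cC / 2 ^ (e - 1)) ^ 2 := (RP_mono hr pe (lp D) le_rfl hDσ).trans (hCA _ l1 l2)
      have a3 := mul_le_mul a1 a2 (RP_nonneg hr) hQB0
      refine (mul_le_mul_of_nonneg_left (Real.sqrt_le_sqrt a3) (by positivity)).trans
        (le_of_eq ?_)
      set xe := cC / 2 ^ (e - 1)
      rw [← Real.sqrt_sq (inv_nonneg.mpr pe.le), ← Real.sqrt_mul (by positivity)]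
      congr 1
      field_simp)
  -- part 4
  obtain ⟨K, _, hK⟩ := UG_tail hr hr2 hτ hτ hC capA capB capC
  set κ := 6 * (P₀ + Z) with hκd
  have κ0 : 0 ≤ κ := by positivity
  have slk : ∀ {h : ℝ}, 0 < h → h ≤ e₂ → 1 ≤ √(e₂ / h) := by
    intro h h1 h2
    rw [Real.one_le_sqrt, one_le_div h1]
    exact h2
  have hAB' : ∀ h, 0 < h → h ≤ e₂ → h ≤ τ → RP r N s h h FA FB ≤ P₀ * (h ^ 2 * √(e₂ / h)) := by
    intro h h1 h2 h3
    refine (hAB h h1 h3).trans (mul_le_mul_of_nonneg_left ?_ hP₀)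
    exact le_mul_of_one_le_right (by positivity) (slk h1 h2)
  have key2 : ∀ {h x y p q : ℝ}, 0 < h → 0 ≤ x → 0 ≤ y → x ≤ p * (h ^ 2 * √(e₂ / h)) →
      y ≤ q * (h ^ 2 * √(e₂ / h)) →
      0 ≤ p → 0 ≤ q → p ≤ P₀ + Z → q ≤ P₀ + Z → 6 * (h⁻¹ * √(x * y)) ≤ κ * √(e₂ * h) := by
    intro h x y p q hh hx0 hy0 hx hy hp0 hq0 hp hq
    have h1 : x * y ≤ ((P₀ + Z) * (h ^ 2 * √(e₂ / h))) ^ 2 := by
      have b1 : x ≤ (P₀ + Z) * (h ^ 2 * √(e₂ / h)) :=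
        hx.trans (mul_le_mul_of_nonneg_right hp (by positivity))
      have b2 : y ≤ (P₀ + Z) * (h ^ 2 * √(e₂ / h)) :=
        hy.trans (mul_le_mul_of_nonneg_right hq (by positivity))
      rw [pow_two ((P₀ + Z) * (h ^ 2 * √(e₂ / h)))]
      exact mul_le_mul b1 b2 hy0 (by positivity)
    have h2 : √(x * y) ≤ (P₀ + Z) * (h ^ 2 * √(e₂ / h)) := by
      rw [← Real.sqrt_sq (by positivity : 0 ≤ (P₀ + Z) * (h ^ 2 * √(e₂ / h)))]
      exact Real.sqrt_le_sqrt h1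
    have h3 := mul_le_mul_of_nonneg_left h2 (inv_nonneg.mpr hh.le)
    refine (mul_le_mul_of_nonneg_left h3 (by norm_num)).trans (le_of_eq ?_)
    rw [hκd, ← mul_sqrt_div hh he₂.le]
    field_simp
  have pz1 : P₀ ≤ P₀ + Z := by linarith
  have pz2 : Z ≤ P₀ + Z := by linarith
  have sumq : ∀ {c : ℝ}, 0 < c → ∀ n : ℕ, c / 2 ^ (n - 1) ≤ e₂ → ∀ L : ℕ,
      ∑ j ∈ range L, κ * √(e₂ * (c / 2 ^ ((n + j) - 1))) ≤ 9 / 2 * κ * e₂ := by
    intro c hc n hn L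
    rw [← mul_sum]
    have h1 := sq_lev hc.le he₂.le n L
    have h3 : √(e₂ * (c / 2 ^ (n - 1))) ≤ e₂ :=
      (Real.sqrt_le_sqrt (mul_le_mul_of_nonneg_left hn he₂.le)).trans
        (Real.sqrt_mul_self he₂.le).le
    have h2 := mul_le_mul_of_nonneg_left (h1.trans (mul_le_mul_of_nonneg_left h3
      (by norm_num : (0 : ℝ) ≤ 9 / 2))) κ0
    linarith
  have q4 := ind3 (f := UG r N s τ τ cC FA FB FC) (K := K)
    (κA := fun a => κ * √(e₂ * (τ / 2 ^ (a - 1)))) (κB := fun b => κ * √(e₂ * (τ / 2 ^ (b - 1))))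
    (κC := fun e => κ * √(e₂ * (cC / 2 ^ (e - 1)))) (fun j => by positivity)
    (fun j => by positivity)
    (fun j => by positivity) hK (a₀ := D) (b₀ := D) (e₀ := E') (fun a b e ha hb he => ?_)
    (SA := 9 / 2 * κ * e₂) (SB := 9 / 2 * κ * e₂) (SC := 9 / 2 * κ * e₂)
    (fun L => ?_) (fun L => ?_) (fun L => ?_)
  · have f1 : ((E' - E : ℕ) : ℝ) ≤ L₁ := by
      have : E' - E ≤ L₁ := by
        rcases le_total E E₁ with h | h
        · rw [hE', max_eq_right h]; omega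
        · rw [hE', max_eq_left h]; omega
      exact_mod_cast this
    have f2 : 6 * √(P₁ * QB) * ((E' - E : ℕ) : ℝ) ≤ 6 * √(P₁ * QB) * L₁ :=
      mul_le_mul_of_nonneg_left f1 (by positivity)
    have f3 : 6 * κ' * (E : ℝ) ≤ 6 * κ' * L₀ :=
      mul_le_mul_of_nonneg_left (by exact_mod_cast hE2) (by positivity)
    have f4 : 9 / 2 * κ * e₂ + 9 / 2 * κ * e₂ + 9 / 2 * κ * e₂ = 81 * (P₀ + Z) * e₂ := by
      rw [hκd]; ring
    rw [f4] at q4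
    linarith
  · have la : τ / 2 ^ (a - 1) ≤ e₂ := (mono hτ.le ha).trans hxD
    have lb : τ / 2 ^ (b - 1) ≤ e₂ := (mono hτ.le hb).trans hxD
    have le : cC / 2 ^ (e - 1) ≤ e₂ := (mono hC.le he).trans hxE'
    have pa := lp a
    have pb := lp b
    have pe := lc e
    rcases le_total (τ / 2 ^ (b - 1)) (τ / 2 ^ (a - 1)) with h1 | h1
    · rcases le_total (cC / 2 ^ (e - 1)) (τ / 2 ^ (a - 1)) with h2 | h2
      · refine Or.inl ((UG_A hr hr2 hτ hτ hC capA capB capC a b e le_rfl le_rfl).trans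
          (add_le_add le_rfl ?_))
        exact key2 pa (RP_nonneg hr) (RP_nonneg hr)
          ((RP_mono hr pe pa h2 le_rfl).trans (hZA _ pa la))
          ((RP_mono hr pa pb le_rfl h1).trans (hAB' _ pa la (ll a))) hZ0 hP₀ pz2 pz1
      · refine Or.inr (Or.inr ((UG_C hr hr2 hτ hτ hC capA capB capC a b e le_rfl le_rfl).trans
          (add_le_add le_rfl ?_)))
        exact key2 pe (RP_nonneg hr) (RP_nonneg hr)
          ((RP_mono hr pb pe (h1.trans h2) le_rfl).trans (hZB _ pe le))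
          ((RP_mono hr pe pa le_rfl h2).trans (hZA _ pe le)) hZ0 hZ0 pz2 pz2
    · rcases le_total (cC / 2 ^ (e - 1)) (τ / 2 ^ (b - 1)) with h2 | h2
      · refine Or.inr (Or.inl ((UG_B hr hr2 hτ hτ hC capA capB capC a b e le_rfl le_rfl).trans
          (add_le_add le_rfl ?_)))
        exact key2 pb (RP_nonneg hr) (RP_nonneg hr)
          ((RP_mono hr pa pb h1 le_rfl).trans (hAB' _ pb lb (ll b)))
          ((RP_mono hr pb pe le_rfl h2).trans (hZB _ pb lb)) hP₀ hZ0 pz1 pz2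
      · refine Or.inr (Or.inr ((UG_C hr hr2 hτ hτ hC capA capB capC a b e le_rfl le_rfl).trans
          (add_le_add le_rfl ?_)))
        exact key2 pe (RP_nonneg hr) (RP_nonneg hr)
          ((RP_mono hr pb pe h2 le_rfl).trans (hZB _ pe le))
          ((RP_mono hr pe pa le_rfl (h1.trans h2)).trans (hZA _ pe le)) hZ0 hZ0 pz2 pz2
  · exact sumq hτ D hxD L
  · exact sumq hτ D hxD L
  · exact sumq hC E' hxE' L

/-- **The raw stage sum, three hubs, rectangular matrices.** -/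
theorem stage3Y {P : Type*} {α β γ : ℕ → Type} [∀ k, Fintype (α k)] [∀ k, DecidableEq (α k)]
    [∀ k, Fintype (β k)] [∀ k, DecidableEq (β k)] [∀ k, Fintype (γ k)] [∀ k, DecidableEq (γ k)]
    {ha : ∀ k, Matrix (α k) (α k) ℝ} {hb : ∀ k, Matrix (β k) (β k) ℝ}
    {hc : ∀ k, Matrix (γ k) (γ k) ℝ} {N : ℕ} {s : ℕ → Finset P} {τ cC : ℝ}
    {FA : ∀ k, P → Matrix (α k) (β k) ℝ} {FB : ∀ k, P → Matrix (β k) (γ k) ℝ}
    {FC : ∀ k, P → Matrix (γ k) (α k) ℝ}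
    (ha1 : ∀ k, (ha k)ᵀ = ha k) (ha2 : ∀ k, ha k * ha k = 1)
    (hb1 : ∀ k, (hb k)ᵀ = hb k) (hb2 : ∀ k, hb k * hb k = 1)
    (hc1 : ∀ k, (hc k)ᵀ = hc k) (hc2 : ∀ k, hc k * hc k = 1)
    (hτ : 0 < τ) (hC : 0 < cC)
    (capA : ∀ k ∈ Icc 1 N, ∀ m ∈ s k,
      (1 - ((τ ^ 2)⁻¹ * (4 ^ k)⁻¹) • ((FA k m)ᵀ * FA k m)).PosSemidef)
    (capB : ∀ k ∈ Icc 1 N, ∀ m ∈ s k,
      (1 - ((τ ^ 2)⁻¹ * (4 ^ k)⁻¹) • ((FB k m)ᵀ * FB k m)).PosSemidef)
    (capC : ∀ k ∈ Icc 1 N, ∀ m ∈ s k,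
      (1 - ((cC ^ 2)⁻¹ * (4 ^ k)⁻¹) • ((FC k m)ᵀ * FC k m)).PosSemidef)
    {P₀ P₁ QA QB Z κ' g σ e₂ : ℝ} (hP₀ : 0 ≤ P₀) (hQB0 : 0 ≤ QB)
    (hZ0 : 0 ≤ Z) (hκ : 0 ≤ κ') (he₂ : 0 < e₂) {D L₀ L₁ : ℕ}
    (hDσ : τ / 2 ^ (D - 1) ≤ σ) (hσ : σ ≤ e₂) (hL₀ : cC / 2 ^ (L₀ - 1) ≤ g)
    (hL₁ : cC / 2 ^ (L₁ - 1) ≤ e₂)
    (hAB : ∀ h, 0 < h → h ≤ τ → RP3 hb N s h h FA FB ≤ P₀ * h ^ 2)
    (hT : ∀ x, g ≤ x → x ≤ cC → √(RP3 hc N s τ x FB FC * RP3 ha N s x τ FC FA) ≤ κ' * x)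
    (hQA : RP3 ha N s g τ FC FA ≤ QA) (hQB : RP3 hc N s τ g FB FC ≤ QB)
    (hCA : ∀ x, e₂ ≤ x → x ≤ g → RP3 ha N s x σ FC FA ≤ P₁ * x ^ 2)
    (hZB : ∀ h, 0 < h → h ≤ e₂ → RP3 hc N s h h FB FC ≤ Z * (h ^ 2 * √(e₂ / h)))
    (hZA : ∀ h, 0 < h → h ≤ e₂ → RP3 ha N s h h FC FA ≤ Z * (h ^ 2 * √(e₂ / h))) :
    ∑ k ∈ Icc 1 N, ∑ m ∈ s k,
        |(2 ^ k : ℝ)⁻¹ * (ha k * FA k m * hb k * FB k m * hc k * FC k m).trace| ≤
      6 * κ' * L₀ + 6 * D * (√(P₀ * QA) + √(P₀ * QB)) + 6 * L₁ * √(P₁ * QB) +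
        81 * (P₀ + Z) * e₂ := by
  set r : ∀ k, Matrix (α k ⊕ (β k ⊕ γ k)) (α k ⊕ (β k ⊕ γ k)) ℝ := fun k =>
    rb (ha k) (hb k) (hc k) with hr
  set GA : ∀ k, P → Matrix (α k ⊕ (β k ⊕ γ k)) (α k ⊕ (β k ⊕ γ k)) ℝ := fun k m =>
    ea (α k) (β k) (γ k) * FA k m * (eb (α k) (β k) (γ k))ᵀ with hGA
  set GB : ∀ k, P → Matrix (α k ⊕ (β k ⊕ γ k)) (α k ⊕ (β k ⊕ γ k)) ℝ := fun k m =>
    eb (α k) (β k) (γ k) * FB k m * (ec (α k) (β k) (γ k))ᵀ with hGB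
  set GC : ∀ k, P → Matrix (α k ⊕ (β k ⊕ γ k)) (α k ⊕ (β k ⊕ γ k)) ℝ := fun k m =>
    ec (α k) (β k) (γ k) * FC k m * (ea (α k) (β k) (γ k))ᵀ with hGC
  have q1 : ∀ k, (eb (α k) (β k) (γ k))ᵀ * r k * eb (α k) (β k) (γ k) = hb k := fun k => by
    rw [Matrix.mul_assoc, hr]
    simp only
    rw [rb_eb, ← Matrix.mul_assoc, eb_eb, Matrix.one_mul]
  have q2 : ∀ k, (ec (α k) (β k) (γ k))ᵀ * r k * ec (α k) (β k) (γ k) = hc k := fun k => by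
    rw [Matrix.mul_assoc, hr]
    simp only
    rw [rb_ec, ← Matrix.mul_assoc, ec_ec, Matrix.one_mul]
  have q3 : ∀ k, (ea (α k) (β k) (γ k))ᵀ * r k * ea (α k) (β k) (γ k) = ha k := fun k => by
    rw [Matrix.mul_assoc, hr]
    simp only
    rw [rb_ea, ← Matrix.mul_assoc, ea_ea, Matrix.one_mul]
  have eAB : ∀ x y : ℝ, RP r N s x y GA GB = RP3 hb N s x y FA FB := fun x y => by
    unfold RP RP3
    refine sum_congr rfl fun k _ => sum_congr rfl fun m _ => ?_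
    rw [hGA, hGB]
    simp only
    rw [M2_pad (eb_eb _ _ _) (ea_ea _ _ _) (ec_ec _ _ _) (q1 k) (by positivity) (by positivity)]
  have eBC : ∀ x y : ℝ, RP r N s x y GB GC = RP3 hc N s x y FB FC := fun x y => by
    unfold RP RP3
    refine sum_congr rfl fun k _ => sum_congr rfl fun m _ => ?_
    rw [hGB, hGC]
    simp only
    rw [M2_pad (ec_ec _ _ _) (eb_eb _ _ _) (ea_ea _ _ _) (q2 k) (by positivity) (by positivity)]
  have eCA : ∀ x y : ℝ, RP r N s x y GC GA = RP3 ha N s x y FC FA := fun x y => by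
    unfold RP RP3
    refine sum_congr rfl fun k _ => sum_congr rfl fun m _ => ?_
    rw [hGC, hGA]
    simp only
    rw [M2_pad (ea_ea _ _ _) (ec_ec _ _ _) (eb_eb _ _ _) (q3 k) (by positivity) (by positivity)]
  have main := stageYP (r := r) (FA := GA) (FB := GB) (FC := GC) (QA := QA) (QB := QB)
    (fun k => rb_symm (ha1 k) (hb1 k) (hc1 k)) (fun k => rb_sq (ha2 k) (hb2 k) (hc2 k)) hτ hC
    (fun k hk m hm => by
      rw [hGA]
      simp only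
      rw [gramC_pad (ea_ea _ _ _)]
      exact cap_pad (eb_eb _ _ _) (capA k hk m hm))
    (fun k hk m hm => by
      rw [hGB]
      simp only
      rw [gramC_pad (eb_eb _ _ _)]
      exact cap_pad (ec_ec _ _ _) (capB k hk m hm))
    (fun k hk m hm => by
      rw [hGC]
      simp only
      rw [gramC_pad (ec_ec _ _ _)]
      exact cap_pad (ea_ea _ _ _) (capC k hk m hm))
    hP₀ hQB0 hZ0 hκ he₂ hDσ hσ hL₀ hL₁
    (fun x h1 h2 => by rw [eAB]; exact hAB x h1 h2)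
    (fun x h1 h2 => by rw [eBC, eCA]; exact hT x h1 h2)
    ((eCA g τ).trans_le hQA) ((eBC τ g).trans_le hQB)
    (fun x h1 h2 => by rw [eCA]; exact hCA x h1 h2)
    (fun x h1 h2 => by rw [eBC]; exact hZB x h1 h2)
    (fun x h1 h2 => by rw [eCA]; exact hZA x h1 h2)
  refine le_trans (le_of_eq ?_) main
  unfold UG
  refine sum_congr rfl fun k _ => sum_congr rfl fun m _ => ?_
  congr 2
  exact (T3_pad (FA k m) (FB k m) (FC k m)).symm

/-- **`H408.StageYC 81`.** -/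
theorem stageYC : StageYC 81 := by
  intro κ _ _ J X K s A B C τ cC P₀ P₁ QA QB Z κ' g σ e₂ D L₀ L₁ hτ hC hP₀ hP₁ hQB0 hZ hκ' he₂
    hDσ hσ hL₀ hL₁ capA capB capC hAB hT hQA hQB hCA hZB hZA
  set T : ℕ → Finset (Σ _ : J, Pt) := fun k => X.sigma fun i => s i k with hTd
  have sw : ∀ f : J → ℕ → Pt → ℝ, ∑ i ∈ X, ∑ k ∈ Icc 1 K, ∑ m ∈ s i k, f i k m =
      ∑ k ∈ Icc 1 K, ∑ q ∈ T k, f q.1 k q.2 := by
    intro f
    rw [sum_comm]
    refine sum_congr rfl fun k _ => ?_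
    rw [hTd]
    simp only
    rw [sum_sigma]
  have mT : ∀ {k : ℕ} {q : Σ _ : J, Pt}, q ∈ T k → q.1 ∈ X ∧ q.2 ∈ s q.1 k := by
    intro k q hq
    exact mem_sigma.1 hq
  have eAB : ∀ x y : ℝ, RP3 (P := Σ _ : J, Pt) (fun k => hd k) K T x y
      (fun k q => fA (A q.1 k q.2) k q.2) (fun k q => fB (B q.1 k q.2) k q.2) =
      ∑ i ∈ X, ∑ k ∈ Icc 1 K, ∑ m ∈ s i k, rAB (A i k m) (B i k m) k m x y := by
    intro x y
    rw [sw fun i k m => rAB (A i k m) (B i k m) k m x y]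
    exact sum_congr rfl fun k _ => sum_congr rfl fun q _ => (rAB_eq _ _ k q.2 x y).symm
  have eBC : ∀ x y : ℝ, RP3 (P := Σ _ : J, Pt) (fun k => hdL κ k) K T x y
      (fun k q => fB (B q.1 k q.2) k q.2) (fun k q => fC (C q.1 k q.2) k q.2) =
      ∑ i ∈ X, ∑ k ∈ Icc 1 K, ∑ m ∈ s i k, rBC (B i k m) (C i k m) k m x y := by
    intro x y
    rw [sw fun i k m => rBC (B i k m) (C i k m) k m x y]
    exact sum_congr rfl fun k _ => sum_congr rfl fun q _ => (rBC_eq _ _ k q.2 x y).symm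
  have eCA : ∀ x y : ℝ, RP3 (P := Σ _ : J, Pt) (fun k => hd k) K T x y
      (fun k q => fC (C q.1 k q.2) k q.2) (fun k q => fA (A q.1 k q.2) k q.2) =
      ∑ i ∈ X, ∑ k ∈ Icc 1 K, ∑ m ∈ s i k, rCA (C i k m) (A i k m) k m x y := by
    intro x y
    rw [sw fun i k m => rCA (C i k m) (A i k m) k m x y]
    exact sum_congr rfl fun k _ => sum_congr rfl fun q _ => (rCA_eq _ _ k q.2 x y).symm
  have main := stage3Y (P := Σ _ : J, Pt) (N := K) (s := T) (QA := QA) (QB := QB)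
    (ha := fun k => hd k)
    (hb := fun k => hd k) (hc := fun k => hdL κ k)
    (FA := fun k q => fA (A q.1 k q.2) k q.2) (FB := fun k q => fB (B q.1 k q.2) k q.2)
    (FC := fun k q => fC (C q.1 k q.2) k q.2) (fun k => hd_symm k) (fun k => hd_sq k)
    (fun k => hd_symm k) (fun k => hd_sq k) (fun k => hdL_symm k) (fun k => hdL_sq k) hτ hC
    (fun k hk q hq => cap_of hτ k (gA _ k q.2) (capA q.1 (mT hq).1 k hk q.2 (mT hq).2))
    (fun k hk q hq => row_cap (by positivity)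
      (cap_of hτ k (gB _ k q.2) (capB q.1 (mT hq).1 k hk q.2 (mT hq).2)))
    (fun k hk q hq => cap_of hC k (gC' _ k q.2) (capC q.1 (mT hq).1 k hk q.2 (mT hq).2))
    hP₀ hQB0 hZ hκ' he₂ hDσ hσ hL₀ hL₁
    (fun x h1 h2 => by rw [eAB]; exact hAB x h1 h2)
    (fun x h1 h2 => by rw [eBC, eCA]; exact hT x h1 h2)
    ((eCA g τ).trans_le hQA) ((eBC τ g).trans_le hQB)
    (fun x h1 h2 => by rw [eCA]; exact hCA x h1 h2)
    (fun x h1 h2 => by rw [eBC]; exact hZB x h1 h2)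
    (fun x h1 h2 => by rw [eCA]; exact hZA x h1 h2)
  have e : ∑ i ∈ X, ∑ k ∈ Icc 1 K, ∑ m ∈ s i k, |nf3 (A i k m) (B i k m) (C i k m) k m| =
      ∑ k ∈ Icc 1 K, ∑ q ∈ T k, |(2 ^ k : ℝ)⁻¹ * (hd k * fA (A q.1 k q.2) k q.2 * hd k *
        fB (B q.1 k q.2) k q.2 * hdL κ k * fC (C q.1 k q.2) k q.2).trace| := by
    rw [sw fun i k m => |nf3 (A i k m) (B i k m) (C i k m) k m|]
    exact sum_congr rfl fun k hk => sum_congr rfl fun q _ => by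
      rw [nf3_tr _ _ _ (mem_Icc.1 hk).1]
  rw [e]
  refine main.trans ?_
  have n1 : 0 ≤ √(P₀ * QA) := Real.sqrt_nonneg _
  have n2 : 0 ≤ √(P₀ * QB) := Real.sqrt_nonneg _
  have n3 : 0 ≤ √(P₁ * QB) := Real.sqrt_nonneg _
  have m1 : 0 ≤ κ' * L₀ := by positivity
  have m2 : 0 ≤ D * (√(P₀ * QA) + √(P₀ * QB)) := by positivity
  have m3 : 0 ≤ L₁ * √(P₁ * QB) := by positivity
  have m4 : 0 ≤ (P₀ + Z) * e₂ := by positivity
  have e4 : 6 * κ' * L₀ + 6 * D * (√(P₀ * QA) + √(P₀ * QB)) + 6 * L₁ * √(P₁ * QB) +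
      81 * (P₀ + Z) * e₂ = 6 * (κ' * L₀) + 6 * (D * (√(P₀ * QA) + √(P₀ * QB))) +
      6 * (L₁ * √(P₁ * QB)) + 81 * ((P₀ + Z) * e₂) := by ring
  rw [e4]
  linarith

/-- **`H408.StageY1`.** -/
theorem stageY1 : StageY1 := ⟨81, by norm_num, stageYC⟩

end

end Vale.Agent.P141.H145.P
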